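import Vale.Agent.P231Z.Res.Geo
import Vale.Agent.P231.Co.Hom

/-!
# P231 (A), block F2: the open chains retract to the constant chains
-/

set_option maxSynthPendingDepth 3
set_option linter.unusedSectionVars false
set_option linter.unusedVariables false

open Bundle Manifold Set Filter Module
open scoped ContDiff Manifold Topology

namespace Vale.Agent.P231Z.Res

noncomputable section

open Vale.Agent.P234 Vale.Agent.P231 Vale.Agent.P231.H775 Vale.Agent.P231.Fm Vale.Agent.P231.W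
open Vale.Agent.P231.WD3
open Vale.Agent.P231.H766 (stp_mem stp_of_le stp_of_ge stp_contDiff)

/-- two maps are homotopic on `O` -/
def Htp {X Y : Type*} (DX : Dif X) (O : Set X) (DY : Dif Y) (f g : X → Y) : Prop :=
  ∃ H : X × ℝ → Y, ((DX.on O).prod (Dif.lin ℝ)).Map DY H ∧ (∀ x ∈ O, H (x, 1) = f x) ∧
    ∀ x ∈ O, H (x, 0) = g x

theorem Htp.map_left {X Y : Type*} {DX : Dif X} {O : Set X} {DY : Dif Y} {f g : X → Y}
    (h : Htp DX O DY f g) : (DX.on O).Map DY f := by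
  obtain ⟨H, hH, h1, -⟩ := h
  intro V _ _ _ u s hu
  exact DY.congr (hH (Dif.map_slice_on 1 hu)) (hu.2.mono fun y hy => h1 _ hy)

theorem Htp.map_right {X Y : Type*} {DX : Dif X} {O : Set X} {DY : Dif Y} {f g : X → Y}
    (h : Htp DX O DY f g) : (DX.on O).Map DY g := by
  obtain ⟨H, hH, -, h0⟩ := h
  intro V _ _ _ u s hu
  exact DY.congr (hH (Dif.map_slice_on 0 hu)) (hu.2.mono fun y hy => h0 _ hy)

theorem Htp.pull {X Y : Type*} {DX : Dif X} {O : Set X} {DY : Dif Y} {f g : X → Y}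
    (h : Htp DX O DY f g) (hf : (DX.on O).Map DY f) (hg : (DX.on O).Map DY g) {w : Form DY}
    (hw : w.d = 0) : ∃ κ : Form (DX.on O), Form.pull f hf w = Form.pull g hg w + κ.d := by
  obtain ⟨H, hH, h1, h0⟩ := h
  refine ⟨Form.K (Form.pull H hH w), ?_⟩
  rw [← Form.pull_homotopic hH hf hg h1 h0 hw]
  abel

variable {E : Type*} [NormedAddCommGroup E] [NormedSpace ℝ E] [FiniteDimensional ℝ E]
  {M : Type*} [MetricSpace M] [ChartedSpace E M] [IsManifold 𝓘(ℝ, E) ∞ M]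
  [RiemannianBundle (fun x : M => TangentSpace 𝓘(ℝ, E) x)]
  [IsContMDiffRiemannianBundle 𝓘(ℝ, E) ∞ E (fun x : M => TangentSpace 𝓘(ℝ, E) x)]
  {e : ∀ x : M, TangentSpace 𝓘(ℝ, E) x → M}

theorem dist_gG_lt (F : Facts e) {D : ℝ} (hB : InjGE e D) {x y : M} (h : dist x y < D) (t : ℝ) :
    dist x (gG e x y (H766.stp t)) < D := by
  rw [dist_gG_left F hB h (stp_mem t)]
  exact lt_of_le_of_lt (mul_le_of_le_one_left dist_nonneg (stp_mem t).2) h

theorem gG_stp_one (F : Facts e) {D : ℝ} (hB : InjGE e D) {x y : M} (h : dist x y < D) :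
    gG e x y (H766.stp 1) = y := by rw [stp_of_ge (by norm_num), gG_one F hB h]

theorem gG_stp_zero (F : Facts e) (x y : M) : gG e x y (H766.stp 0) = x := by
  rw [stp_of_le (by norm_num), gG_zero F]

theorem at_gG_stp (F : Facts e) {D : ℝ} (hB : InjGE e D) {V : Type} [NormedAddCommGroup V]
    [NormedSpace ℝ V] [FiniteDimensional ℝ V] {a b : V → M} {r : V → ℝ} {s : V}
    (ha : (dM E M).At a s) (hb : (dM E M).At b s) (hr : Sm r s) (h : dist (a s) (b s) < D) :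
    (dM E M).At (fun t => gG e (a t) (b t) (H766.stp (r t))) s :=
  At_gG F hB ha hb ((Sm.of_contDiff stp_contDiff _).comp hr) h

variable (F : Facts e) {D : ℝ} (hD : 0 < D) (hB : InjGE e D)

include F hD hB

theorem htp3 : Htp (dQ4 E M) (sA3 D) ((dQ4 E M).on (sA3 D)) id
    (fun z => (z.1, z.2.1, z.2.2.1, z.2.2.1)) := by
  refine ⟨fun p => (p.1.1, p.1.2.1, p.1.2.2.1, gG e p.1.2.2.1 p.1.2.2.2 (H766.stp p.2)), ?_,
    fun z hz => ?_, fun z hz => ?_⟩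
  · intro V _ _ _ u s hu
    refine ⟨⟨hu.1.1.1, hu.1.1.2.1, hu.1.1.2.2.1,
      at_gG_stp F hB hu.1.1.2.2.1 hu.1.1.2.2.2 hu.2 hu.1.2.self_of_nhds.2.2⟩, ?_⟩
    filter_upwards [hu.1.2] with y hy
    exact ⟨hy.1, hy.2.1, dist_gG_lt F hB hy.2.2 _⟩
  · show (z.1, z.2.1, z.2.2.1, gG e z.2.2.1 z.2.2.2 (H766.stp 1)) = z
    rw [gG_stp_one F hB hz.2.2]
  · show (z.1, z.2.1, z.2.2.1, gG e z.2.2.1 z.2.2.2 (H766.stp 0)) = _
    rw [gG_stp_zero F]

theorem htp2 : Htp (dQ4 E M) (sA3 D) ((dQ4 E M).on (sA3 D))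
    (fun z => (z.1, z.2.1, z.2.2.1, z.2.2.1)) (fun z => (z.1, z.2.1, z.2.1, z.2.1)) := by
  refine ⟨fun p => (p.1.1, p.1.2.1, gG e p.1.2.1 p.1.2.2.1 (H766.stp p.2),
    gG e p.1.2.1 p.1.2.2.1 (H766.stp p.2)), ?_, fun z hz => ?_, fun z hz => ?_⟩
  · intro V _ _ _ u s hu
    have h1 := at_gG_stp F hB hu.1.1.2.1 hu.1.1.2.2.1 hu.2 hu.1.2.self_of_nhds.2.1
    refine ⟨⟨hu.1.1.1, hu.1.1.2.1, h1, h1⟩, ?_⟩
    filter_upwards [hu.1.2] with y hy
    exact ⟨hy.1, dist_gG_lt F hB hy.2.1 _, (dist_self _).trans_lt hD⟩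
  · show (z.1, z.2.1, gG e z.2.1 z.2.2.1 (H766.stp 1), gG e z.2.1 z.2.2.1 (H766.stp 1)) = _
    rw [gG_stp_one F hB hz.2.1]
  · show (z.1, z.2.1, gG e z.2.1 z.2.2.1 (H766.stp 0), gG e z.2.1 z.2.2.1 (H766.stp 0)) = _
    rw [gG_stp_zero F]

theorem htp1 : Htp (dQ4 E M) (sA3 D) ((dQ4 E M).on (sA3 D))
    (fun z => (z.1, z.2.1, z.2.1, z.2.1)) (fun z => (z.1, z.1, z.1, z.1)) := by
  refine ⟨fun p => (p.1.1, gG e p.1.1 p.1.2.1 (H766.stp p.2), gG e p.1.1 p.1.2.1 (H766.stp p.2),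
    gG e p.1.1 p.1.2.1 (H766.stp p.2)), ?_, fun z hz => ?_, fun z hz => ?_⟩
  · intro V _ _ _ u s hu
    have h1 := at_gG_stp F hB hu.1.1.1 hu.1.1.2.1 hu.2 hu.1.2.self_of_nhds.1
    refine ⟨⟨hu.1.1.1, h1, h1, h1⟩, ?_⟩
    filter_upwards [hu.1.2] with y hy
    exact ⟨dist_gG_lt F hB hy.1 _, (dist_self _).trans_lt hD, (dist_self _).trans_lt hD⟩
  · show (z.1, gG e z.1 z.2.1 (H766.stp 1), gG e z.1 z.2.1 (H766.stp 1),
      gG e z.1 z.2.1 (H766.stp 1)) = _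
    rw [gG_stp_one F hB hz.1]
  · show (z.1, gG e z.1 z.2.1 (H766.stp 0), gG e z.1 z.2.1 (H766.stp 0),
      gG e z.1 z.2.1 (H766.stp 0)) = _
    rw [gG_stp_zero F]

omit F hB in
theorem map_diagA : (dM E M).Map ((dQ4 E M).on (sA3 D)) (fun x => (x, x, x, x)) :=
  fun {V} _ _ _ {u s} hu => ⟨⟨hu, hu, hu, hu⟩, Eventually.of_forall fun y =>
    ⟨(dist_self _).trans_lt hD, (dist_self _).trans_lt hD, (dist_self _).trans_lt hD⟩⟩

omit F hD hB in
theorem map_fstQ (O : Set (M × M × M × M)) : ((dQ4 E M).on O).Map (dM E M) Prod.fst :=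
  fun h => h.1.1

/-- **closed forms on the open chains come from `M`** -/
theorem from_M {w : Form ((dQ4 E M).on (sA3 D))} (hw : w.d = 0) :
    ∃ κ : Form ((dQ4 E M).on (sA3 D)), w = Form.pull Prod.fst (map_fstQ (sA3 D))
      (Form.pull (fun x => (x, x, x, x)) (map_diagA hD) w) + κ.d := by
  have h3 := htp3 F hD hB
  have h2 := htp2 F hD hB
  have h1 := htp1 F hD hB
  obtain ⟨κ₃, e3⟩ := h3.pull Dif.map_id h3.map_right hw
  obtain ⟨κ₂, e2⟩ := h2.pull h3.map_right h2.map_right hw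
  obtain ⟨κ₁, e1⟩ := h1.pull h2.map_right h1.map_right hw
  have e0 : Form.pull Prod.fst (map_fstQ (sA3 D))
      (Form.pull (fun x => (x, x, x, x)) (map_diagA hD) w) =
      Form.pull (fun z : M × M × M × M => (z.1, z.1, z.1, z.1)) h1.map_right w :=
    Form.pull2_one (f := Prod.fst) (g := fun x : M => (x, x, x, x)) _ _ _ (fun _ => rfl) w
  rw [Form.pull_id] at e3
  refine ⟨κ₁ + κ₂ + κ₃, ?_⟩
  rw [e0, Form.d_add, Form.d_add]
  conv_lhs => rw [e3, e2, e1]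
  abel

end

end Vale.Agent.P231Z.Res
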