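import Vale.Agent.P231.CoZ.Val

/-!
# P231 (A), block F2: the angular form of the bundle of unit spheres of the planes
-/

set_option maxSynthPendingDepth 3
set_option linter.unusedSectionVars false
set_option linter.unusedVariables false

open Bundle Manifold Set Filter Module MeasureTheory
open scoped ContDiff Manifold Topology

namespace Vale.Agent.P231Z.Res

noncomputable section

open Vale.Agent.P234 Vale.Agent.P231 Vale.Agent.P231.Fm Vale.Agent.P231.W Vale.Agent.P231.WR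
open Vale.Agent.P231.S2II Vale.Agent.P231.CoZ

variable {E : Type*} [NormedAddCommGroup E] [NormedSpace ℝ E]
  {M : Type*} [MetricSpace M] [ChartedSpace E M]
  [RiemannianBundle (fun x : M => TangentSpace 𝓘(ℝ, E) x)]
  {e : ∀ x : M, TangentSpace 𝓘(ℝ, E) x → M}
  [FiniteDimensional ℝ E] [IsManifold 𝓘(ℝ, E) ∞ M]
  [IsContMDiffRiemannianBundle 𝓘(ℝ, E) ∞ E (fun x : M => TangentSpace 𝓘(ℝ, E) x)]
  [CompactSpace M] [ConnectedSpace M] [IsRiemannianManifold 𝓘(ℝ, E) M]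

/-- closed functions on the unit tangent bundle are constant -/
theorem const_UT (F : Facts e) (hN : 1 < finrank ℝ E) (w : Form (dUT E M)) (hw : w.d = 0)
    (h0 : Form.IsDeg 0 w) : ∃ c : ℝ, w = c • (1 : Form (dUT E M)) := by
  obtain ⟨a, κ, h1, h2, h3, -, h5⟩ := CoU.surj (j := 0) (by omega) hw h0
  obtain ⟨c, hc⟩ := CoC.const_M F a h2 h1
  refine ⟨c, ?_⟩
  rw [h3, h5 rfl, Form.d_zero, add_zero, hc, Co.pull_smul, Co.pull_one]

variable (F : Facts e) {D : ℝ} (hD : 0 < D) (hB : InjGE e D) (hdiam : ∀ p q : M, dist p q ≤ D)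
  {l : ℕ} [NeZero l] (hP : ∀ x y : M, dist x y = D → finrank ℝ (H775.Pl e D x y) = l + 1)

/-- an orientation form is an angular form, up to a constant -/
theorem exists_angZ (hl : Odd l) (hN : 1 < finrank ℝ E) {b : Form (dUT E M)} {c : Form (dZ e D)}
    (hb : OrnZ l b c) (hc : Form.IsDeg (l + 1) c) : ∃ k : ℝ, k ≠ 0 ∧
      (bun_Z F hD hB hdiam hP hb hl).Ang (bas (l + 1)) (k⁻¹ • b) (-(k⁻¹ • c)) := by
  have hl0 := NeZero.pos l
  set h := bun_Z F hD hB hdiam hP hb hl with hh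
  have hψd : b.d = Form.pull (fb e D) h.hπ c := hb.d
  have h0 : Form.IsDeg 0 (h.SI (bas (l + 1)) b) := h.isDeg_SI _ hb.deg (by omega)
  have h1 : (h.SI (bas (l + 1)) b).d = 0 := by
    have h2 := h.SI_d (bas (l + 1)) b
    rw [hψd, h.SI_pull_zero _ (by omega)] at h2
    exact (smul_eq_zero.1 h2.symm).resolve_left (pow_ne_zero _ (by norm_num))
  obtain ⟨k, hk⟩ := h.const_base (bas (l + 1)) (by omega) (const_UT F hN) h1 h0
  have hk0 : k ≠ 0 := by
    rintro rfl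
    obtain ⟨p⟩ : Nonempty M := inferInstance
    obtain ⟨ξ₀, hξ⟩ := CoU.exists_unit (E := E) (by omega)
    let v₀ : UT E M := W.mk p (fr (E := E) p ξ₀) (by rw [nm_fr, hξ])
    have hv₀ : (dUT E M).At (fun _ : ℝ => v₀) 0 :=
      Eventually.of_forall fun y => contMDiffAt_const
    have hu : (dZ e D).At (fun _ : ℝ => fb e D v₀) 0 := ⟨fun _ => v₀, EventuallyEq.rfl, hv₀⟩
    obtain ⟨f, hf, hfu⟩ := h.hq.lift hu
    have h2 := congrArg (fun a : Form (dFoP e D l b) => a.val f 0) (h.pull_SI (bas (l + 1)) b)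
    rw [hk, zero_smul, Co.pull_zero] at h2
    have h3 : (0 : Lam ℝ) = ((Co.si (bas (l + 1)) (Form.pull evP h.hev b)).val f 0 : Lam ℝ) := h2
    have hi : (dFoP e D l b).Map (dFr e D l) id := fun h => h.1
    have h4 := Co.si_nat (bas (l + 1)) hi
      (Form.pull evP (map_evP (e := e) (D := D) (l := l)) b)
    have h5 : Form.pull (fun q : Fr e D l × Eul (l + 1) => (id q.1, q.2)) (Co.map_SB hi)
        (Form.pull evP (map_evP (e := e) (D := D) (l := l)) b) = Form.pull evP h.hev b := by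
      refine Form.ext_val fun V _ _ _ u x hu => ?_
      rw [Form.pull_val _ _ hu, Form.pull_val _ _ (Co.map_SB hi hu), Form.pull_val _ _ hu]
      rfl
    rw [h5] at h4
    rw [h4, Form.pull_val _ _ hf] at h3
    have h6 : WF.ptv (frP b) (f 0) = aug ((frP b).val f 0) := WF.ptv_eq _ hf.1
    have h7 : (frP b : Form (dFr e D l)).val (id ∘ f) 0 = 0 := h3.symm
    have h8 : kfP b (f 0) = 0 := by
      rw [kfP, h6]
      have h9 : (frP b : Form (dFr e D l)).val f 0 = 0 := h7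
      rw [h9, map_zero]
    exact hb.ne _ h8
  refine ⟨k, hk0, ?_, ?_, ?_, ?_⟩
  · rw [Form.d_smul, hψd, Co.pull_neg, Co.pull_smul, neg_neg]
  · rw [h.SI_smul, hk, smul_smul, inv_mul_cancel₀ hk0, one_smul]
  · rw [Nat.add_sub_cancel]
    exact hb.deg.smul _
  · exact (hc.smul _).neg

omit [NeZero l] in
/-- the orientation form given by the form `FF` -/
theorem ornZ_FF {p : M} {n : ℕ}
    {Pi : TangentSpace 𝓘(ℝ, E) p → TangentSpace 𝓘(ℝ, E) p →L[ℝ] TangentSpace 𝓘(ℝ, E) p}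
    {o : TangentSpace 𝓘(ℝ, E) p → Fm.Lam (TangentSpace 𝓘(ℝ, E) p)}
    {ρ : TangentSpace 𝓘(ℝ, E) p → ℝ} {r₀ : ℝ}
    (hl : ∀ x y : M, dist x y = D → finrank ℝ (H775.Pl e D x y) = 2 * n + 2)
    (hJ : FE.LineP e D p n Pi o) (hρ : WE.Rho e D p ρ r₀) (hN : 2 ≤ finrank ℝ E) :
    OrnZ (2 * n + 1) (B0 F D (FE.FF F hD hB hdiam hl hJ hρ 1))
        (cZ F D (FE.FF F hD hB hdiam hl hJ hρ 1)) ∧
      Form.IsDeg (2 * n + 1 + 1) (cZ F D (FE.FF F hD hB hdiam hl hJ hρ 1)) := by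
  have hG : Form.IsDeg (2 * n + 1 + 1) (FE.FF F hD hB hdiam hl hJ hρ 1) :=
    DegC.ofWF (FE.FF_deg F hD hB hdiam hl hJ hρ 1)
  refine ⟨⟨isDeg_B0 F hG, by rw [B0_d F (FE.FF_d F hD hB hdiam hl hJ hρ 1), pull_cZ],
    fun f h0 => ?_⟩, (hG.pull _ _).sub (hG.pull _ _)⟩
  have h1 := abs_kfP_all F hD hB hdiam hl hJ hρ 1 hN f
  rw [h0, abs_zero] at h1
  exact (FE.kap_pos n one_ne_zero).ne h1

end

end Vale.Agent.P231Z.Res
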