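import Vale.Agent.P231.CoZ.BunZ
import Vale.Agent.P231.WD.GeoInst
import Vale.Agent.P231.WE.Good

/-!
# P231 (A), block F2: chains of four points
-/

set_option linter.unusedSectionVars false
set_option linter.unusedVariables false

open Bundle Manifold Set Filter Module
open scoped ContDiff Manifold Topology

namespace Vale.Agent.P231Z.Res

noncomputable section

open Vale.Agent.P231 Vale.Agent.P231.Fm Vale.Agent.P231.W

section Sets

variable {M : Type*} [MetricSpace M]

/-- open chains of three steps shorter than `D` -/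
def sA3 (D : ℝ) : Set (M × M × M × M) :=
  {z | dist z.1 z.2.1 < D ∧ dist z.2.1 z.2.2.1 < D ∧ dist z.2.2.1 z.2.2.2 < D}

/-- closed chains of four steps shorter than `D` -/
def sP4 (D : ℝ) : Set (M × M × M × M) :=
  {z | dist z.1 z.2.1 < D ∧ dist z.2.1 z.2.2.1 < D ∧ dist z.2.2.1 z.2.2.2 < D ∧
    dist z.2.2.2 z.1 < D}

/-- open chains whose end points are at distance `D` -/
def sZ (D : ℝ) : Set (M × M × M × M) :=
  {z | (dist z.1 z.2.1 < D ∧ dist z.2.1 z.2.2.1 < D ∧ dist z.2.2.1 z.2.2.2 < D) ∧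
    dist z.1 z.2.2.2 = D}

end Sets

variable (E : Type*) [NormedAddCommGroup E] [NormedSpace ℝ E]
  (M : Type*) [MetricSpace M] [ChartedSpace E M]

/-- the diffeology of `M ^ 4` -/
abbrev dQ4 : Dif (M × M × M × M) := (dM E M).prod ((dM E M).prod ((dM E M).prod (dM E M)))

/-- the space of closed chains -/
abbrev dP4 (D : ℝ) : Dif (M × M × M × M) := (dQ4 E M).on (sP4 D)

variable {E M} [RiemannianBundle (fun x : M => TangentSpace 𝓘(ℝ, E) x)]
  [FiniteDimensional ℝ E] [IsManifold 𝓘(ℝ, E) ∞ M]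

/-- the retraction to the cut locus is smooth in both variables -/
def CutSm (e : ∀ x : M, TangentSpace 𝓘(ℝ, E) x → M) (D : ℝ) : Prop :=
  (((dM E M).prod (dM E M)).on {q | q.2 ≠ q.1}).Map (CoZ.dZ e D)
    (fun q => (q.1, WE.cutPt e D q.1 q.2))

end

end Vale.Agent.P231Z.Res
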