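import Vale.Agent.P231Z.Res.ZU
import Vale.Agent.P231Z.Res.A3
import Vale.Agent.P231Z.Res.AngZ
import Vale.Agent.P231Z.Tube.Glue4
import Vale.Agent.P231Z.Tube.Cut2

/-!
# P231 (A), block F2: the residue on closed chains and on loops
-/

set_option maxSynthPendingDepth 3
set_option linter.unusedSectionVars false
set_option linter.unusedVariables false

open Bundle Manifold Set Filter Module MeasureTheory
open scoped ContDiff Manifold Topology

namespace Vale.Agent.P231Z.Res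

noncomputable section

open Vale.Agent.P234 Vale.Agent.P231 Vale.Agent.P231.Fm Vale.Agent.P231.W Vale.Agent.P231.WR
open Vale.Agent.P231.S2II Vale.Agent.P231.CoZ

/-- a residue map of degree `-l` whose kernel in cohomology comes from `M` -/
structure IsRes {X U M : Type*} (dX : Dif X) (dU : Dif U) (dM : Dif M) (l : ℕ) (ev : X → M)
    (hev : dX.Map dM ev) (Res : Form dX →ₗ[ℝ] Form dU) : Prop where
  d : ∀ w : Form dX, w.d = 0 → (Res w).d = 0
  deg : ∀ (k : ℕ) (w : Form dX), Form.IsDeg (k + l) w → Form.IsDeg k (Res w)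
  low : ∀ (k : ℕ) (w : Form dX), k < l → Form.IsDeg k w → Res w = 0
  ex : ∀ (k : ℕ) (w : Form dX) (κ : Form dU), Form.IsDeg k w → w.d = 0 → Res w = κ.d →
    ∃ (a : Form dM) (η : Form dX), w = Form.pull ev hev a + η.d

/-- transport of a residue map along a homotopy equivalence -/
theorem IsRes.transport {X P U M : Type*} {dX : Dif X} {dP : Dif P} {dU : Dif U} {dM : Dif M}
    {l : ℕ} {ev : P → M} {hev : dP.Map dM ev} {Res : Form dP →ₗ[ℝ] Form dU}
    (h : IsRes dP dU dM l ev hev Res) {ev' : X → M} (hev' : dX.Map dM ev') {quad : X → P}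
    (hq : dX.Map dP quad) {poly : P → X} (hp : dP.Map dX poly) (hqe : ∀ c, ev (quad c) = ev' c)
    (hh : ∀ w : Form dX, w.d = 0 →
      ∃ κ : Form dX, w = Form.pull quad hq (Form.pull poly hp w) + κ.d) :
    IsRes dX dU dM l ev' hev' (Res ∘ₗ (Form.pullA poly hp).toLinearMap) where
  d w hw := h.d (Form.pull poly hp w) (by rw [← Form.pull_d, hw, Co.pull_zero])
  deg k w hw := h.deg k (Form.pull poly hp w) (hw.pull _ _)
  low k w hk hw := h.low k (Form.pull poly hp w) hk (hw.pull _ _)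
  ex k w κ hk hw hκ := by
    obtain ⟨a, η, h1⟩ := h.ex k (Form.pull poly hp w) κ (hk.pull _ _)
      (by rw [← Form.pull_d, hw, Co.pull_zero]) hκ
    obtain ⟨κ', h2⟩ := hh w hw
    refine ⟨a, Form.pull quad hq η + κ', ?_⟩
    rw [h1, Co.pull_add, Form.pull_d,
      Form.pull2_one (f := quad) (g := ev) (g' := ev') hq hev hev' hqe a] at h2
    rw [Form.d_add, ← add_assoc]
    exact h2

variable {E : Type*} [NormedAddCommGroup E] [NormedSpace ℝ E]
  {M : Type*} [MetricSpace M] [ChartedSpace E M]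
  [RiemannianBundle (fun x : M => TangentSpace 𝓘(ℝ, E) x)]
  {e : ∀ x : M, TangentSpace 𝓘(ℝ, E) x → M}
  [FiniteDimensional ℝ E] [IsManifold 𝓘(ℝ, E) ∞ M]
  [IsContMDiffRiemannianBundle 𝓘(ℝ, E) ∞ E (fun x : M => TangentSpace 𝓘(ℝ, E) x)]
  [CompactSpace M] [ConnectedSpace M] [IsRiemannianManifold 𝓘(ℝ, E) M]

variable (F : Facts e) {D : ℝ} (hD : 0 < D) (hB : InjGE e D) (hdiam : ∀ p q : M, dist p q ≤ D)

section Gen

variable {l : ℕ} (hl : ∀ x y : M, dist x y = D → finrank ℝ (H775.Pl e D x y) = l + 1)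
  {Fr : Type*} {DF : Dif Fr} {Fv : Type} [NormedAddCommGroup Fv] [InnerProductSpace ℝ Fv]
  [FiniteDimensional ℝ Fv] [MeasurableSpace Fv] [BorelSpace Fv]
  {q : Fr → M × M} {ev : Fr × Fv → UT E M}
  (h : Co.Bun (dZ e D) (dUT E M) DF Fv (fb e D) q ev) (o : OrthonormalBasis (Fin (l + 1)) ℝ Fv)

/-- the residue on closed chains -/
def ResP : Form (dP4 E M D) →ₗ[ℝ] Form (dUT E M) where
  toFun w := Form.pull (jZ e D) (map_jZ F hD hB) (Tube.ResQ F hD hB hdiam hl h o w)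
  map_add' v w := by rw [Tube.ResQ_add, Co.pull_add (map_jZ F hD hB)]
  map_smul' c w := by
    rw [Tube.ResQ_smul, Co.pull_smul (map_jZ F hD hB)]
    rfl

theorem ResP_apply (w : Form (dP4 E M D)) : ResP F hD hB hdiam hl h o w =
    Form.pull (jZ e D) (map_jZ F hD hB) (Tube.ResQ F hD hB hdiam hl h o w) := rfl

theorem ResQ_closed {w : Form (dP4 E M D)} (hw : w.d = 0) :
    (Tube.ResQ F hD hB hdiam hl h o w).d = 0 :=
  Co.Bun.SI_closed _ o (by rw [← Form.pull_d _ (Tube.map_tube4 F hD hB), hw, Co.pull_zero])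

theorem isRes_P (v₀ : UT E M) {ψ : Form (dUT E M)} {ε : Form (dZ e D)} (hψ : h.Ang o ψ ε) :
    IsRes (dP4 E M D) (dUT E M) (dM E M) l Prod.fst (map_fstQ (sP4 D))
      (ResP F hD hB hdiam hl h o) where
  d w hw := by
    rw [ResP_apply, ← Form.pull_d _ (map_jZ F hD hB), ResQ_closed F hD hB hdiam hl h o hw,
      Co.pull_zero]
  deg k w hw := (Tube.isDeg_ResQ F hD hB hdiam hl h o hw (by omega)).pull _ (map_jZ F hD hB)
  low k w hk hw := by
    rw [ResP_apply, Tube.ResQ_eq_zero F hD hB hdiam hl h o hw (by omega), Co.pull_zero]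
  ex k w κ hk hw hκ := by
    obtain ⟨η, hη⟩ := exact_sZ F hD hB hdiam v₀ (CutSm.cutAt F (Tube.cutSm F hD hB hdiam hl))
      (ResQ_closed F hD hB hdiam hl h o hw) hκ
    obtain ⟨w', κ₁, k1, -, k3, -, -⟩ :=
      Tube.glue4 F hD hB hdiam hl h o v₀ hψ (Nat.succ_pos l) hw hk hη
    obtain ⟨κ₂, k4⟩ := from_M F hD hB k1
    refine ⟨Form.pull (fun x => (x, x, x, x)) (map_diagA hD) w',
      Form.pull id (Dif.map_on_mono Tube.sP4_sub) κ₂ + κ₁, ?_⟩
    have k5 := congrArg (Form.pull id (Dif.map_on_mono (D := dQ4 E M) (Tube.sP4_sub (D := D)))) k4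
    rw [Co.pull_add, Form.pull_d, Form.pull2_one (f := id) (g := Prod.fst) (g' := Prod.fst)
      _ (map_fstQ (sA3 D)) (map_fstQ (sP4 D)) (fun _ => rfl)] at k5
    rw [Form.d_add, ← add_assoc, ← k5]
    exact k3

end Gen

include F hD hB hdiam in
/-- **the residue on closed chains** -/
theorem exists_ResP {p : M} {n : ℕ}
    {Pi : TangentSpace 𝓘(ℝ, E) p → TangentSpace 𝓘(ℝ, E) p →L[ℝ] TangentSpace 𝓘(ℝ, E) p}
    {o : TangentSpace 𝓘(ℝ, E) p → Fm.Lam (TangentSpace 𝓘(ℝ, E) p)}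
    {ρ : TangentSpace 𝓘(ℝ, E) p → ℝ} {r₀ : ℝ}
    (hl : ∀ x y : M, dist x y = D → finrank ℝ (H775.Pl e D x y) = 2 * n + 2)
    (hJ : FE.LineP e D p n Pi o) (hρ : WE.Rho e D p ρ r₀) (hN : 2 ≤ finrank ℝ E) :
    ∃ Res : Form (dP4 E M D) →ₗ[ℝ] Form (dUT E M),
      IsRes (dP4 E M D) (dUT E M) (dM E M) (2 * n + 1) Prod.fst (map_fstQ (sP4 D)) Res := by
  have : NeZero (2 * n + 1) := ⟨by omega⟩
  obtain ⟨hb, hc⟩ := ornZ_FF F hD hB hdiam hl hJ hρ hN
  obtain ⟨k, -, hA⟩ := exists_angZ F hD hB hdiam (l := 2 * n + 1) hl ⟨n, rfl⟩ (by omega) hb hc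
  obtain ⟨ξ₀, hξ⟩ := CoU.exists_unit (E := E) (by omega)
  exact ⟨_, isRes_P F hD hB hdiam (l := 2 * n + 1) hl _ _
    (W.mk p (fr (E := E) p ξ₀) (by rw [nm_fr, hξ])) hA⟩

include F hD hB hdiam in
/-- **the residue on a space which is dominated by the closed chains** -/
theorem exists_ResX {p : M} {n : ℕ}
    {Pi : TangentSpace 𝓘(ℝ, E) p → TangentSpace 𝓘(ℝ, E) p →L[ℝ] TangentSpace 𝓘(ℝ, E) p}
    {o : TangentSpace 𝓘(ℝ, E) p → Fm.Lam (TangentSpace 𝓘(ℝ, E) p)}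
    {ρ : TangentSpace 𝓘(ℝ, E) p → ℝ} {r₀ : ℝ}
    (hl : ∀ x y : M, dist x y = D → finrank ℝ (H775.Pl e D x y) = 2 * n + 2)
    (hJ : FE.LineP e D p n Pi o) (hρ : WE.Rho e D p ρ r₀) (hN : 2 ≤ finrank ℝ E)
    {X : Type*} {dX : Dif X} {ev : X → M} (hev : dX.Map (dM E M) ev)
    {quad : X → M × M × M × M} (hq : dX.Map (dP4 E M D) quad) {poly : M × M × M × M → X}
    (hp : (dP4 E M D).Map dX poly) (hqe : ∀ c, (quad c).1 = ev c)
    (hh : ∀ w : Form dX, w.d = 0 →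
      ∃ κ : Form dX, w = Form.pull quad hq (Form.pull poly hp w) + κ.d) :
    ∃ Res : Form dX →ₗ[ℝ] Form (dUT E M),
      IsRes dX (dUT E M) (dM E M) (2 * n + 1) ev hev Res := by
  obtain ⟨Res, hR⟩ := exists_ResP F hD hB hdiam hl hJ hρ hN
  exact ⟨_, hR.transport hev hq hp hqe hh⟩

end

end Vale.Agent.P231Z.Res
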