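import Vale.Agent.P231Z.Res.Geo

/-!
# P231 (A), block F2: the Birkhoff step on chains with fixed end points
-/

set_option maxSynthPendingDepth 3
set_option linter.unusedSectionVars false
set_option linter.unusedVariables false

open Bundle Manifold Set Filter Module
open scoped ContDiff Manifold Topology

namespace Vale.Agent.P231Z.Res

noncomputable section

open Vale.Agent.P234 Vale.Agent.P231 Vale.Agent.P231.H775 Vale.Agent.P231.Fm Vale.Agent.P231.W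
open Vale.Agent.P231.WD3

variable {E : Type*} [NormedAddCommGroup E] [NormedSpace ℝ E] [FiniteDimensional ℝ E]
  {M : Type*} [MetricSpace M] [ChartedSpace E M] [IsManifold 𝓘(ℝ, E) ∞ M]
  [RiemannianBundle (fun x : M => TangentSpace 𝓘(ℝ, E) x)]
  [IsContMDiffRiemannianBundle 𝓘(ℝ, E) ∞ E (fun x : M => TangentSpace 𝓘(ℝ, E) x)]
  {e : ∀ x : M, TangentSpace 𝓘(ℝ, E) x → M}

/-- the corner at `y` of the chain `x, y, z` is cut off -/
def cc (e : ∀ x : M, TangentSpace 𝓘(ℝ, E) x → M) (x y z : M) (s : ℝ) : M :=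
  gG e (gG e y x (s / 2)) (gG e y z (s / 2)) (1 / 2)

theorem half_mem {s : ℝ} (hs : s ∈ Icc (0 : ℝ) 1) : s / 2 ∈ Icc (0 : ℝ) 1 :=
  ⟨by linarith [hs.1], by linarith [hs.1, hs.2]⟩

theorem hf_mem : (1 / 2 : ℝ) ∈ Icc (0 : ℝ) 1 := ⟨by norm_num, by norm_num⟩

section

variable (F : Facts e) {D : ℝ} (hB : InjGE e D)

include F hB

theorem dist_mm {x y z : M} (h1 : dist x y < D) (h2 : dist y z < D) {s : ℝ}
    (hs : s ∈ Icc (0 : ℝ) 1) :
    dist (gG e y x (s / 2)) (gG e y z (s / 2)) ≤ s / 2 * (dist x y + dist y z) := by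
  have h1' : dist y x < D := by rwa [dist_comm]
  have e1 := dist_gG_left F hB h1' (half_mem hs)
  have e2 := dist_gG_left F hB h2 (half_mem hs)
  have e3 := dist_triangle_left (gG e y x (s / 2)) (gG e y z (s / 2)) y
  rw [e1, e2, dist_comm y x] at e3
  linarith

theorem dist_mm_lt {x y z : M} (h1 : dist x y < D) (h2 : dist y z < D) {s : ℝ}
    (hs : s ∈ Icc (0 : ℝ) 1) : dist (gG e y x (s / 2)) (gG e y z (s / 2)) < D := by
  have e1 := dist_mm F hB h1 h2 hs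
  have e2 : s / 2 * (dist x y + dist y z) ≤ 1 / 2 * (dist x y + dist y z) :=
    mul_le_mul_of_nonneg_right (by linarith [hs.2]) (add_nonneg dist_nonneg dist_nonneg)
  linarith

theorem cc_left {x y z : M} (h1 : dist x y < D) (h2 : dist y z < D) {s : ℝ}
    (hs : s ∈ Icc (0 : ℝ) 1) : dist (gG e y x (s / 2)) (cc e x y z s) =
      1 / 2 * dist (gG e y x (s / 2)) (gG e y z (s / 2)) :=
  dist_gG_left F hB (dist_mm_lt F hB h1 h2 hs) hf_mem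

theorem cc_right {x y z : M} (h1 : dist x y < D) (h2 : dist y z < D) {s : ℝ}
    (hs : s ∈ Icc (0 : ℝ) 1) : dist (cc e x y z s) (gG e y z (s / 2)) =
      1 / 2 * dist (gG e y x (s / 2)) (gG e y z (s / 2)) := by
  have e1 := dist_gG_right F hB (dist_mm_lt F hB h1 h2 hs) hf_mem
  rw [show (1 : ℝ) - 1 / 2 = 1 / 2 by norm_num] at e1
  exact e1

theorem cc_zero (hD : 0 < D) (x y z : M) : cc e x y z 0 = y := by
  rw [cc, zero_div, gG_zero F, gG_zero F, gG_self F hD hB]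

theorem at_cc {V : Type} [NormedAddCommGroup V] [NormedSpace ℝ V] [FiniteDimensional ℝ V]
    {a b c : V → M} {r : V → ℝ} {s : V} (ha : (dM E M).At a s) (hb : (dM E M).At b s)
    (hc : (dM E M).At c s) (hr : Sm r s) (h1 : dist (a s) (b s) < D) (h2 : dist (b s) (c s) < D)
    (hs : r s ∈ Icc (0 : ℝ) 1) : (dM E M).At (fun y => cc e (a y) (b y) (c y) (r y)) s := by
  have h3 : Sm (fun y => r y / 2) s := by
    filter_upwards [hr] with y hy using hy.div_const 2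
  exact At_gG F hB (At_gG F hB hb ha h3 (by rwa [dist_comm])) (At_gG F hB hb hc h3 h2)
    (Sm.of_contDiff contDiff_const _) (dist_mm_lt F hB h1 h2 hs)

theorem contAt_cc {T : Type*} [TopologicalSpace T] {a b c : T → M} {t : T}
    (ha : ContinuousAt a t) (hb : ContinuousAt b t) (hc : ContinuousAt c t)
    (h1 : dist (a t) (b t) < D) (h2 : dist (b t) (c t) < D) {s : ℝ} (hs : s ∈ Icc (0 : ℝ) 1) :
    ContinuousAt (fun y => cc e (a y) (b y) (c y) s) t :=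
  contAt_gG F hB (contAt_gG F hB hb ha continuousAt_const (by rwa [dist_comm]))
    (contAt_gG F hB hb hc continuousAt_const h2) continuousAt_const (dist_mm_lt F hB h1 h2 hs)

end

/-- the Birkhoff step -/
def bk (e : ∀ x : M, TangentSpace 𝓘(ℝ, E) x → M) (z : M × M × M × M) (s : ℝ) : M × M × M × M :=
  (z.1, cc e z.1 z.2.1 z.2.2.1 s, cc e z.2.1 z.2.2.1 z.2.2.2 s, z.2.2.2)

/-- the energy of a chain -/
def en (z : M × M × M × M) : ℝ :=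
  dist z.1 z.2.1 ^ 2 + dist z.2.1 z.2.2.1 ^ 2 + dist z.2.2.1 z.2.2.2 ^ 2

theorem continuous_en : Continuous (en : M × M × M × M → ℝ) := by
  unfold en
  fun_prop

section

variable (F : Facts e) {D : ℝ} (hB : InjGE e D)

include F hB

/-- the new steps -/
theorem bk_steps {x₀ x₁ x₂ x₃ : M} (h1 : dist x₀ x₁ < D) (h2 : dist x₁ x₂ < D)
    (h3 : dist x₂ x₃ < D) {s : ℝ} (hs : s ∈ Icc (0 : ℝ) 1) :
    dist x₀ (cc e x₀ x₁ x₂ s) ≤ (1 - s / 2) * dist x₀ x₁ +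
        1 / 2 * dist (gG e x₁ x₀ (s / 2)) (gG e x₁ x₂ (s / 2)) ∧
      dist (cc e x₀ x₁ x₂ s) (cc e x₁ x₂ x₃ s) ≤
        1 / 2 * dist (gG e x₁ x₀ (s / 2)) (gG e x₁ x₂ (s / 2)) + (1 - s) * dist x₁ x₂ +
          1 / 2 * dist (gG e x₂ x₁ (s / 2)) (gG e x₂ x₃ (s / 2)) ∧
      dist (cc e x₁ x₂ x₃ s) x₃ ≤ 1 / 2 * dist (gG e x₂ x₁ (s / 2)) (gG e x₂ x₃ (s / 2)) +
        (1 - s / 2) * dist x₂ x₃ := by
  refine ⟨?_, ?_, ?_⟩
  · have e1 := dist_gG_right F hB (x := x₁) (y := x₀) (by rwa [dist_comm]) (half_mem hs)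
    have e2 := cc_left F hB h1 h2 hs
    have e3 := dist_triangle x₀ (gG e x₁ x₀ (s / 2)) (cc e x₀ x₁ x₂ s)
    rw [dist_comm x₀ (gG e x₁ x₀ (s / 2)), e1, e2, dist_comm x₁ x₀] at e3
    exact e3
  · have e1 := cc_right F hB h1 h2 hs
    have e2 := cc_left F hB h2 h3 hs
    have e3 := dist_gG_gG F hB h2 (half_mem hs)
      (t := 1 - s / 2) ⟨by linarith [hs.2], by linarith [hs.1]⟩
    rw [← gG_swap F hB h2, abs_of_nonpos (by linarith [hs.2])] at e3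
    have e4 := dist_triangle4 (cc e x₀ x₁ x₂ s) (gG e x₁ x₂ (s / 2)) (gG e x₂ x₁ (s / 2))
      (cc e x₁ x₂ x₃ s)
    rw [e1, e2, e3, show -(s / 2 - (1 - s / 2)) = 1 - s by ring] at e4
    exact e4
  · have e1 := dist_gG_right F hB h3 (half_mem hs)
    have e2 := cc_right F hB h2 h3 hs
    have e3 := dist_triangle (cc e x₁ x₂ x₃ s) (gG e x₂ x₃ (s / 2)) x₃
    rw [e1, e2] at e3
    exact e3

theorem bk_steps' {x₀ x₁ x₂ x₃ : M} (h1 : dist x₀ x₁ < D) (h2 : dist x₁ x₂ < D)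
    (h3 : dist x₂ x₃ < D) {s : ℝ} (hs : s ∈ Icc (0 : ℝ) 1) :
    dist x₀ (cc e x₀ x₁ x₂ s) ≤ (1 - s / 4) * dist x₀ x₁ + s / 4 * dist x₁ x₂ ∧
      dist (cc e x₀ x₁ x₂ s) (cc e x₁ x₂ x₃ s) ≤
        s / 4 * dist x₀ x₁ + (1 - s / 2) * dist x₁ x₂ + s / 4 * dist x₂ x₃ ∧
      dist (cc e x₁ x₂ x₃ s) x₃ ≤ s / 4 * dist x₁ x₂ + (1 - s / 4) * dist x₂ x₃ := by
  obtain ⟨e1, e2, e3⟩ := bk_steps F hB h1 h2 h3 hs
  have e4 := dist_mm F hB h1 h2 hs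
  have e5 := dist_mm F hB h2 h3 hs
  exact ⟨by linarith, by linarith, by linarith⟩

/-- the steps stay bounded -/
theorem bk_le {z : M × M × M × M} (hz : z ∈ sA3 D) {r : ℝ} (h1 : dist z.1 z.2.1 ≤ r)
    (h2 : dist z.2.1 z.2.2.1 ≤ r) (h3 : dist z.2.2.1 z.2.2.2 ≤ r) {s : ℝ}
    (hs : s ∈ Icc (0 : ℝ) 1) :
    dist (bk e z s).1 (bk e z s).2.1 ≤ r ∧ dist (bk e z s).2.1 (bk e z s).2.2.1 ≤ r ∧
      dist (bk e z s).2.2.1 (bk e z s).2.2.2 ≤ r := by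
  obtain ⟨e1, e2, e3⟩ := bk_steps' F hB hz.1 hz.2.1 hz.2.2 hs
  have s1 : 0 ≤ s / 4 := by linarith [hs.1]
  have s2 : 0 ≤ 1 - s / 4 := by linarith [hs.2]
  have s3 : 0 ≤ 1 - s / 2 := by linarith [hs.2]
  have a1 := mul_le_mul_of_nonneg_left h1 s1
  have a2 := mul_le_mul_of_nonneg_left h1 s2
  have b1 := mul_le_mul_of_nonneg_left h2 s1
  have b3 := mul_le_mul_of_nonneg_left h2 s3
  have c1 := mul_le_mul_of_nonneg_left h3 s1
  have c2 := mul_le_mul_of_nonneg_left h3 s2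
  refine ⟨?_, ?_, ?_⟩
  · exact e1.trans (by linarith)
  · exact e2.trans (by linarith)
  · exact e3.trans (by linarith)

theorem bk_mem {z : M × M × M × M} (hz : z ∈ sZ D) {s : ℝ} (hs : s ∈ Icc (0 : ℝ) 1) :
    bk e z s ∈ sZ D := by
  obtain ⟨e1, e2, e3⟩ := bk_le F hB hz.1
    (r := max (dist z.1 z.2.1) (max (dist z.2.1 z.2.2.1) (dist z.2.2.1 z.2.2.2)))
    (le_max_left _ _) ((le_max_left _ _).trans (le_max_right _ _))
    ((le_max_right _ _).trans (le_max_right _ _)) hs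
  have e4 : max (dist z.1 z.2.1) (max (dist z.2.1 z.2.2.1) (dist z.2.2.1 z.2.2.2)) < D :=
    max_lt hz.1.1 (max_lt hz.1.2.1 hz.1.2.2)
  exact ⟨⟨e1.trans_lt e4, e2.trans_lt e4, e3.trans_lt e4⟩, hz.2⟩

omit F hB in
theorem sq_mix {a b c a' b' c' t : ℝ} (ha' : 0 ≤ a') (hb' : 0 ≤ b') (hc' : 0 ≤ c')
    (h0 : 0 ≤ t) (h1 : t ≤ 1 / 4) (e1 : a' ≤ (1 - t) * a + t * b)
    (e2 : b' ≤ t * a + (1 - 2 * t) * b + t * c) (e3 : c' ≤ t * b + (1 - t) * c) :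
    a' ^ 2 + b' ^ 2 + c' ^ 2 ≤ a ^ 2 + b ^ 2 + c ^ 2 - t * ((a - b) ^ 2 + (b - c) ^ 2) := by
  have f1 := pow_le_pow_left₀ ha' e1 2
  have f2 := pow_le_pow_left₀ hb' e2 2
  have f3 := pow_le_pow_left₀ hc' e3 2
  have key : ((1 - t) * a + t * b) ^ 2 + (t * a + (1 - 2 * t) * b + t * c) ^ 2 +
      (t * b + (1 - t) * c) ^ 2 = a ^ 2 + b ^ 2 + c ^ 2 - t * ((a - b) ^ 2 + (b - c) ^ 2) -
        t * ((1 - 3 * t) * ((a - b) ^ 2 + (b - c) ^ 2) + t * (a - c) ^ 2) := by ring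
  have g1 : 0 ≤ t * ((1 - 3 * t) * ((a - b) ^ 2 + (b - c) ^ 2) + t * (a - c) ^ 2) :=
    mul_nonneg h0 (add_nonneg (mul_nonneg (by linarith) (by positivity))
      (mul_nonneg h0 (sq_nonneg _)))
  linarith

/-- the energy does not increase -/
theorem en_bk {z : M × M × M × M} (hz : z ∈ sA3 D) {s : ℝ} (hs : s ∈ Icc (0 : ℝ) 1) :
    en (bk e z s) ≤ en z - s / 4 * ((dist z.1 z.2.1 - dist z.2.1 z.2.2.1) ^ 2 +
      (dist z.2.1 z.2.2.1 - dist z.2.2.1 z.2.2.2) ^ 2) := by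
  obtain ⟨e1, e2, e3⟩ := bk_steps' F hB hz.1 hz.2.1 hz.2.2 hs
  exact sq_mix dist_nonneg dist_nonneg dist_nonneg (by linarith [hs.1]) (by linarith [hs.2]) e1
    (by rw [show 1 - 2 * (s / 4) = 1 - s / 2 by ring]; exact e2) e3

theorem en_bk_le {z : M × M × M × M} (hz : z ∈ sA3 D) {s : ℝ} (hs : s ∈ Icc (0 : ℝ) 1) :
    en (bk e z s) ≤ en z := by
  have e1 := en_bk F hB hz hs
  have e2 : 0 ≤ s / 4 * ((dist z.1 z.2.1 - dist z.2.1 z.2.2.1) ^ 2 +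
      (dist z.2.1 z.2.2.1 - dist z.2.2.1 z.2.2.2) ^ 2) :=
    mul_nonneg (by linarith [hs.1]) (by positivity)
  linarith

end

theorem en_ge {D : ℝ} (hD : 0 < D) {z : M × M × M × M} (hz : z ∈ sZ D) : D ^ 2 / 3 ≤ en z := by
  have e1 := dist_triangle4 z.1 z.2.1 z.2.2.1 z.2.2.2
  rw [hz.2] at e1
  have e2 := pow_le_pow_left₀ hD.le e1 2
  unfold en
  nlinarith [sq_nonneg (dist z.1 z.2.1 - dist z.2.1 z.2.2.1),
    sq_nonneg (dist z.2.1 z.2.2.1 - dist z.2.2.1 z.2.2.2),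
    sq_nonneg (dist z.1 z.2.1 - dist z.2.2.1 z.2.2.2)]

/-- the chain of a unit vector -/
def jZ (e : ∀ x : M, TangentSpace 𝓘(ℝ, E) x → M) (D : ℝ) (v : UT E M) : M × M × M × M :=
  (foot v, gm e (v, D / 3), gm e (v, 2 * D / 3), bar e D v)

variable [CompactSpace M] [ConnectedSpace M] [IsRiemannianManifold 𝓘(ℝ, E) M]

/-- a straight corner: the geodesic continues -/
theorem cont_geo (F : Facts e) {D : ℝ} (hB : InjGE e D) (v : UT E M) {a t : ℝ} (ha : 0 < a)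
    {x : M} (h2 : dist (gm e (v, t)) x = a) (haD : a < D)
    (h : dist (gm e (v, t - a / 2)) (gG e (gm e (v, t)) x (1 / 2)) = a) :
    gG e (gm e (v, t)) x (1 / 2) = gm e (v, t + a / 2) ∧ x = gm e (v, t + a) := by
  have h2' : dist (gm e (v, t)) x < D := by rwa [h2]
  have d1 : dist (gm e (v, t - a / 2)) (gm e (v, t)) = a / 2 := by
    rw [dist_gm F hB v (by linarith) (by linarith)]
    ring
  have d2 : dist (gm e (v, t)) (gG e (gm e (v, t)) x (1 / 2)) = a / 2 := by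
    rw [dist_gG_left F hB h2' hf_mem, h2]
    ring
  have e1 := gG_between F hB (x := gm e (v, t - a / 2)) (y := gm e (v, t))
    (z := gG e (gm e (v, t)) x (1 / 2)) (by rw [d1]; linarith) (by rw [d1]; linarith)
    (by rw [d1, d2, h]; ring)
  rw [h, d1, gG_gm F hB v (by rw [abs_of_nonneg (by linarith)]; linarith)] at e1
  have e2 : t - a / 2 + a / (a / 2) * (t - (t - a / 2)) = t + a / 2 := by
    field_simp
    ring
  rw [e2] at e1
  refine ⟨e1.symm, ?_⟩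
  have e3 := gG_gG F hB h2' hf_mem 2
  rw [← e1, gG_gm F hB v (by rw [abs_of_nonneg (by linarith)]; linarith),
    show (2 : ℝ) * (1 / 2) = 1 by norm_num, gG_one F hB h2'] at e3
  rw [← e3]
  congr 2
  ring

/-- **the fixed points of the Birkhoff step** -/
theorem bk_fix (F : Facts e) {D : ℝ} (hD : 0 < D) (hB : InjGE e D)
    (hdiam : ∀ p q : M, dist p q ≤ D) (v₀ : UT E M) {z : M × M × M × M} (hz : z ∈ sZ D)
    (h : en z ≤ en (bk e z 1)) : ∃ v, z = jZ e D v := by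
  obtain ⟨x₀, x₁, x₂, x₃⟩ := z
  have h1 : dist x₀ x₁ < D := hz.1.1
  have h2 : dist x₁ x₂ < D := hz.1.2.1
  have h3 : dist x₂ x₃ < D := hz.1.2.2
  have h4 : dist x₀ x₃ = D := hz.2
  have hs : (1 : ℝ) ∈ Icc (0 : ℝ) 1 := ⟨zero_le_one, le_rfl⟩
  have e1 := en_bk F hB (z := (x₀, x₁, x₂, x₃)) hz.1 hs
  have e2 : (dist x₀ x₁ - dist x₁ x₂) ^ 2 + (dist x₁ x₂ - dist x₂ x₃) ^ 2 ≤ 0 := by
    have e3 : en (bk e (x₀, x₁, x₂, x₃) 1) ≤ en (x₀, x₁, x₂, x₃) -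
      1 / 4 * ((dist x₀ x₁ - dist x₁ x₂) ^ 2 + (dist x₁ x₂ - dist x₂ x₃) ^ 2) := e1
    linarith
  have hab : dist x₁ x₂ = dist x₀ x₁ := by nlinarith [sq_nonneg (dist x₀ x₁ - dist x₁ x₂), sq_nonneg (dist x₁ x₂ - dist x₂ x₃)]
  have hbc : dist x₂ x₃ = dist x₀ x₁ := by nlinarith [sq_nonneg (dist x₀ x₁ - dist x₁ x₂), sq_nonneg (dist x₁ x₂ - dist x₂ x₃)]
  obtain ⟨a, ha⟩ : ∃ a, a = dist x₀ x₁ := ⟨_, rfl⟩
  have ha3 : D ≤ 3 * a := by
    have e4 := dist_triangle4 x₀ x₁ x₂ x₃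
    rw [h4, hab, hbc, ← ha] at e4
    linarith
  have ha0 : 0 < a := by linarith
  have haD : a < D := by rwa [ha]
  obtain ⟨f1, f2, f3⟩ := bk_steps F hB h1 h2 h3 hs
  have f4 := dist_mm F hB h1 h2 hs
  have f5 := dist_mm F hB h2 h3 hs
  rw [hab, ← ha] at f2 f4
  rw [hab, hbc, ← ha] at f5
  rw [hbc, ← ha] at f3
  rw [← ha] at f1
  have g0 : 3 * a ^ 2 ≤ dist x₀ (cc e x₀ x₁ x₂ 1) ^ 2 +
      dist (cc e x₀ x₁ x₂ 1) (cc e x₁ x₂ x₃ 1) ^ 2 + dist (cc e x₁ x₂ x₃ 1) x₃ ^ 2 := by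
    have e5 : dist x₀ x₁ ^ 2 + dist x₁ x₂ ^ 2 + dist x₂ x₃ ^ 2 ≤ dist x₀ (cc e x₀ x₁ x₂ 1) ^ 2 +
      dist (cc e x₀ x₁ x₂ 1) (cc e x₁ x₂ x₃ 1) ^ 2 + dist (cc e x₁ x₂ x₃ 1) x₃ ^ 2 := h
    rw [hab, hbc, ← ha] at e5
    linarith
  have g1 : dist x₀ (cc e x₀ x₁ x₂ 1) ^ 2 ≤ a ^ 2 :=
    pow_le_pow_left₀ dist_nonneg (by linarith) 2
  have g2 : dist (cc e x₀ x₁ x₂ 1) (cc e x₁ x₂ x₃ 1) ^ 2 ≤ a ^ 2 :=
    pow_le_pow_left₀ dist_nonneg (by linarith) 2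
  have g3 : dist (cc e x₁ x₂ x₃ 1) x₃ ^ 2 ≤ a ^ 2 :=
    pow_le_pow_left₀ dist_nonneg (by linarith) 2
  have g4 : a ≤ dist x₀ (cc e x₀ x₁ x₂ 1) :=
    le_of_sq_le_sq (by linarith) dist_nonneg
  have g5 : a ≤ dist (cc e x₁ x₂ x₃ 1) x₃ :=
    le_of_sq_le_sq (by linarith) dist_nonneg
  have m1 : dist (gG e x₁ x₀ (1 / 2)) (gG e x₁ x₂ (1 / 2)) = a := by linarith
  have m2 : dist (gG e x₂ x₁ (1 / 2)) (gG e x₂ x₃ (1 / 2)) = a := by linarith
  -- the geodesic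
  obtain ⟨v, hv⟩ : ∃ v, v = dirU e v₀ x₀ x₁ := ⟨_, rfl⟩
  have p0 : x₀ = gm e (v, 0) := by
    rw [gm_zero F, hv, foot_dirU F hB v₀ (by rwa [← ha]) h1]
  have p1 : x₁ = gm e (v, a) := by
    rw [hv, ha, gm_dirU_self F hB v₀ (by rwa [← ha]) h1]
  have q0 : gG e x₁ x₀ (1 / 2) = gm e (v, a - a / 2) := by
    rw [p1, p0, gG_gm F hB v (by rw [abs_of_nonpos (by linarith)]; linarith)]
    congr 2
    ring
  obtain ⟨q1, p2⟩ := cont_geo F hB v ha0 (t := a) (x := x₂) (by rw [← p1, hab, ha]) haD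
    (by rw [← q0, ← p1, m1])
  have q1' : gG e x₂ x₁ (1 / 2) = gm e (v, a + a - a / 2) := by
    rw [gG_swap F hB h2, show (1 : ℝ) - 1 / 2 = 1 / 2 by norm_num, p1, q1]
    congr 2
    ring
  obtain ⟨-, p3⟩ := cont_geo F hB v ha0 (t := a + a) (x := x₃) (by rw [← p2, hbc, ha]) haD
    (by rw [← q1', ← p2, m2])
  have hfoot : foot v = x₀ := by rw [p0, gm_zero F]
  have h3a : 3 * a = D := by
    refine le_antisymm (not_lt.1 fun hlt => ?_) ha3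
    have e6 := dist_gm_le F v (2 * D) (a + a + a)
    rw [gm_per F hD hB hdiam, hfoot, ← p3, h4] at e6
    have e7 : |a + a + a - 2 * D| < D := abs_lt.2 ⟨by linarith, by linarith⟩
    linarith
  refine ⟨v, Prod.ext hfoot.symm (Prod.ext ?_ (Prod.ext ?_ ?_))⟩
  · show x₁ = gm e (v, D / 3)
    rw [p1]
    congr 2
    linarith
  · show x₂ = gm e (v, 2 * D / 3)
    rw [p2]
    congr 2
    linarith
  · show x₃ = gm e (v, D)
    rw [p3]
    congr 2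
    linarith

theorem jZ_mem (F : Facts e) {D : ℝ} (hD : 0 < D) (hB : InjGE e D) (v : UT E M) :
    jZ e D v ∈ sZ D ∧ dist (jZ e D v).1 (jZ e D v).2.1 = D / 3 ∧
      dist (jZ e D v).2.1 (jZ e D v).2.2.1 = D / 3 ∧
      dist (jZ e D v).2.2.1 (jZ e D v).2.2.2 = D / 3 := by
  have e1 : dist (jZ e D v).1 (jZ e D v).2.1 = D / 3 :=
    dist_foot_gm hB v (by linarith) (by linarith)
  have e2 : dist (jZ e D v).2.1 (jZ e D v).2.2.1 = D / 3 := by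
    have h := dist_gm F hB v (s := D / 3) (t := 2 * D / 3) (by linarith) (by linarith)
    rw [show 2 * D / 3 - D / 3 = D / 3 by ring] at h
    exact h
  have e3 : dist (jZ e D v).2.2.1 (jZ e D v).2.2.2 = D / 3 := by
    have h := dist_gm F hB v (s := 2 * D / 3) (t := D) (by linarith) (by linarith)
    rw [show D - 2 * D / 3 = D / 3 by ring] at h
    exact h
  refine ⟨⟨⟨?_, ?_, ?_⟩, dist_bar F hD hB v⟩, e1, e2, e3⟩
  · rw [e1]; linarith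
  · rw [e2]; linarith
  · rw [e3]; linarith

theorem en_jZ (F : Facts e) {D : ℝ} (hD : 0 < D) (hB : InjGE e D) (v : UT E M) :
    en (jZ e D v) = D ^ 2 / 3 := by
  obtain ⟨-, e1, e2, e3⟩ := jZ_mem F hD hB v
  rw [en, e1, e2, e3]
  ring

end

end Vale.Agent.P231Z.Res
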