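import Vale.Agent.P231.Co.Hom
import Mathlib.Geometry.Manifold.PartitionOfUnity

/-!
# P231 (A), block F2: iteration of a deformation step for a smooth time
-/

set_option linter.unusedSectionVars false
set_option linter.unusedVariables false

open Set Filter Module Topology
open scoped ContDiff Manifold

namespace Vale.Agent.P231Z.Res

noncomputable section

open Vale.Agent.P231 Vale.Agent.P231.Fm

/-- a smooth function which dominates a sequence -/
theorem exists_dom (N : ℕ → ℕ) : ∃ f : ℝ → ℝ, ContDiff ℝ ∞ f ∧ ∀ x, (N ⌈x⌉₊ : ℝ) ≤ f x := by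
  obtain ⟨g, hg⟩ := exists_contMDiffMap_forall_mem_convex_of_local_const (n := ⊤) 𝓘(ℝ, ℝ)
    (M := ℝ) (F := ℝ) (t := fun x => Ici (N ⌈x⌉₊ : ℝ)) (fun x => convex_Ici _) (fun x => by
      refine ⟨((∑ i ∈ Finset.range (⌈x⌉₊ + 2), N i : ℕ) : ℝ), ?_⟩
      filter_upwards [eventually_lt_nhds (show x < x + 1 by linarith)] with y hy
      have h1 : ⌈y⌉₊ ≤ ⌈x⌉₊ + 1 := by
        refine Nat.ceil_le.2 ?_
        have h2 := Nat.le_ceil x
        push_cast
        linarith
      have h3 : N ⌈y⌉₊ ≤ ∑ i ∈ Finset.range (⌈x⌉₊ + 2), N i :=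
        Finset.single_le_sum (f := N) (fun i _ => Nat.zero_le _)
          (Finset.mem_range.2 (by omega))
      exact mem_Ici.2 (by exact_mod_cast h3))
  exact ⟨g, g.contMDiff.contDiff, fun x => hg x⟩

variable {X : Type*} {DX : Dif X} {O U : Set X}

/-- a deformation step of `O`, flat at both ends, which finally moves everything into `U` -/
structure Step (DX : Dif X) (O U : Set X) (B : X × ℝ → X) (h : X → ℝ) : Prop where
  map : ((DX.on O).prod (Dif.lin ℝ)).Map (DX.on O) B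
  zero : ∀ x ∈ O, ∀ t : ℝ, t ≤ 1 / 3 → B (x, t) = x
  one : ∀ x ∈ O, ∀ t : ℝ, 2 / 3 ≤ t → B (x, t) = B (x, 1)
  memO : ∀ x ∈ O, ∀ t : ℝ, B (x, t) ∈ O
  memU : ∀ x ∈ O, x ∈ U → ∀ t : ℝ, B (x, t) ∈ U
  hmap : (DX.on O).Map (Dif.lin ℝ) h
  fin : ∀ k : ℕ, ∃ n : ℕ, ∀ x ∈ O, h x ≤ k → (fun x => B (x, 1))^[n] x ∈ U

namespace Step

variable {B : X × ℝ → X} {h : X → ℝ} (S : Step DX O U B h)

include S

theorem it_mem {x : X} (hx : x ∈ O) (n : ℕ) : (fun x => B (x, 1))^[n] x ∈ O := by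
  induction n with
  | zero => exact hx
  | succ n ih =>
    rw [Function.iterate_succ_apply']
    exact S.memO _ ih 1

theorem it_memU {x : X} (hx : x ∈ O) {n m : ℕ} (hn : (fun x => B (x, 1))^[n] x ∈ U)
    (hnm : n ≤ m) : (fun x => B (x, 1))^[m] x ∈ U := by
  induction hnm with
  | refl => exact hn
  | step _ ih =>
    rw [Function.iterate_succ_apply']
    exact S.memU _ (S.it_mem hx _) ih 1

theorem it_map (n : ℕ) : (DX.on O).Map (DX.on O) (fun x => B (x, 1))^[n] := by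
  induction n with
  | zero => exact Dif.map_id
  | succ n ih =>
    rw [Function.iterate_succ']
    exact Dif.Map.comp (Dif.Map.comp S.map (Dif.map_slice_on 1)) ih

omit S in
/-- the semiflow -/
def fl (B : X × ℝ → X) (p : X × ℝ) : X :=
  B ((fun x => B (x, 1))^[⌊p.2⌋₊] p.1, p.2 - ⌊p.2⌋₊)

omit S in
theorem fl_apply (x : X) (t : ℝ) :
    fl B (x, t) = B ((fun x => B (x, 1))^[⌊t⌋₊] x, t - ⌊t⌋₊) := rfl

theorem fl_eq {x : X} (hx : x ∈ O) {t : ℝ} {n : ℕ} (h1 : n = 0 ∨ (n : ℝ) - 1 / 3 < t)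
    (h2 : t < n + 1) : fl B (x, t) = B ((fun x => B (x, 1))^[n] x, t - n) := by
  rcases Nat.eq_zero_or_pos n with h0 | h0
  · subst h0
    have h3 : ⌊t⌋₊ = 0 := Nat.floor_eq_zero.2 (by simpa using h2)
    rw [fl_apply, h3]
  · have h1' : (n : ℝ) - 1 / 3 < t := h1.resolve_left h0.ne'
    rcases le_or_gt (n : ℝ) t with h4 | h4
    · have h3 : ⌊t⌋₊ = n := (Nat.floor_eq_iff (le_trans (Nat.cast_nonneg n) h4)).2 ⟨h4, h2⟩
      rw [fl_apply, h3]
    · obtain ⟨m, rfl⟩ := Nat.exists_eq_succ_of_ne_zero h0.ne'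
      have hm : ((m.succ : ℕ) : ℝ) = m + 1 := by push_cast; rfl
      rw [hm] at h1' h4 h2
      have hm0 : (0 : ℝ) ≤ m := Nat.cast_nonneg m
      have h3 : ⌊t⌋₊ = m := (Nat.floor_eq_iff (by linarith)).2 ⟨by linarith, h4⟩
      rw [fl_apply, h3, hm, S.zero _ (S.it_mem hx _) (t - (m + 1)) (by linarith),
        Function.iterate_succ_apply']
      exact S.one _ (S.it_mem hx _) (t - m) (by linarith)

theorem fl_mem {x : X} (hx : x ∈ O) (t : ℝ) : fl B (x, t) ∈ O := S.memO _ (S.it_mem hx _) _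

theorem fl_zero {x : X} (hx : x ∈ O) : fl B (x, 0) = x := by
  rw [S.fl_eq hx (n := 0) (Or.inl rfl) (by norm_num)]
  exact S.zero _ hx _ (by norm_num)

theorem fl_map : ((DX.on O).prod (Dif.lin ℝ)).Map (DX.on O) (fl B) := by
  intro V _ _ _ u y hu
  have h2 : Sm (fun s => (u s).2) y := hu.2
  obtain ⟨n, hn⟩ : ∃ n : ℕ, n = ⌊(u y).2⌋₊ := ⟨_, rfl⟩
  have h3 : (u y).2 < n + 1 := by
    rw [hn]
    exact Nat.lt_floor_add_one _
  have h4 : n = 0 ∨ (n : ℝ) - 1 / 3 < (u y).2 := by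
    rcases lt_or_ge (u y).2 0 with h5 | h5
    · left
      rw [hn]
      exact Nat.floor_of_nonpos h5.le
    · right
      have h6 := Nat.floor_le h5
      rw [hn]
      linarith
  have h5 : ((DX.on O).prod (Dif.lin ℝ)).At
      (fun s => ((fun x => B (x, 1))^[n] (u s).1, (u s).2 - n)) y := by
    refine ⟨S.it_map n hu.1, ?_⟩
    have h6 : Sm (fun s => (u s).2 - n) y := by
      filter_upwards [h2] with s hs using hs.sub contDiffAt_const
    exact h6
  refine (DX.on O).congr (S.map h5) ?_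
  have h7 : ∀ᶠ s in 𝓝 y, (u s).2 < n + 1 := h2.continuousAt.eventually_lt_const h3
  have h8 : ∀ᶠ s in 𝓝 y, n = 0 ∨ (n : ℝ) - 1 / 3 < (u s).2 := by
    rcases h4 with h4 | h4
    · exact Eventually.of_forall fun s => Or.inl h4
    · exact (h2.continuousAt.eventually_const_lt h4).mono fun s hs => Or.inr hs
  filter_upwards [h7, h8, hu.1.2] with s k1 k2 k3
  exact (S.fl_eq k3 k2 k1).symm

/-- **a closed form which is exact on `U` is exact** -/
theorem exact {w : Form (DX.on O)} (hw : w.d = 0) {η : Form (DX.on (O ∩ U))}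
    (hη : Form.pull id (Dif.map_on_mono inter_subset_left) w = η.d) :
    ∃ κ : Form (DX.on O), w = κ.d := by
  choose N hN using S.fin
  obtain ⟨f, hf, hfN⟩ := exists_dom N
  have hτ : (DX.on O).Map (Dif.lin ℝ) (fun x => f (h x)) := fun {V} _ _ _ {u y} hu =>
    Sm.comp (f := f) (g := h ∘ u) (Sm.of_contDiff hf _) (S.hmap hu)
  have hH : ((DX.on O).prod (Dif.lin ℝ)).Map (DX.on O)
      (fun p : X × ℝ => fl B (p.1, (1 - p.2) * f (h p.1))) := by
    intro V _ _ _ u y hu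
    have h1 : Sm (fun s => (u s).2) y := hu.2
    have h2 : Sm (fun s => f (h (u s).1)) y := hτ hu.1
    have h3 : Sm (fun s => (1 - (u s).2) * f (h (u s).1)) y := by
      filter_upwards [h1, h2] with s k1 k2 using (contDiffAt_const.sub k1).mul k2
    exact S.fl_map (u := fun s => ((u s).1, (1 - (u s).2) * f (h (u s).1))) ⟨hu.1, h3⟩
  have hrU : ∀ x ∈ O, fl B (x, f (h x)) ∈ O ∩ U := by
    intro x hx
    refine ⟨S.fl_mem hx _, ?_⟩
    have h1 := hN ⌈h x⌉₊ x hx (Nat.le_ceil _)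
    have h2 : N ⌈h x⌉₊ ≤ ⌊f (h x)⌋₊ := Nat.le_floor (hfN _)
    exact S.memU _ (S.it_mem hx _) (S.it_memU hx h1 h2) _
  have hr0 : (DX.on O).Map (DX.on O) (fun x => fl B (x, f (h x))) := fun {V} _ _ _ {u y} hu =>
    S.fl_map (u := fun s => (u s, f (h (u s)))) ⟨hu, hτ hu⟩
  have hr : (DX.on O).Map (DX.on (O ∩ U)) (fun x => fl B (x, f (h x))) :=
    fun {V} _ _ _ {u y} hu => ⟨(hr0 hu).1, hu.2.mono fun s hs => hrU _ hs⟩
  have e1 := Form.pull_homotopic (D := DX) (O := O) (D' := DX.on O) hH (f := id)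
    (g := fun x => fl B (x, f (h x))) Dif.map_id hr0
    (fun x hx => by
      show fl B (x, (1 - 1) * f (h x)) = x
      rw [sub_self, zero_mul]
      exact S.fl_zero hx)
    (fun x hx => by
      show fl B (x, (1 - 0) * f (h x)) = fl B (x, f (h x))
      rw [sub_zero, one_mul]) hw
  rw [Form.pull_id] at e1
  have e2 : Form.pull (fun x => fl B (x, f (h x))) hr0 w =
      (Form.pull (fun x => fl B (x, f (h x))) hr η).d := by
    rw [← Form.pull_d, ← hη]
    exact (Form.pull2_one (f := fun x => fl B (x, f (h x))) (g := id)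
      (g' := fun x => fl B (x, f (h x))) _ _ _ (fun _ => rfl) w).symm
  refine ⟨Form.pull (fun x => fl B (x, f (h x))) hr η + Form.K (Form.pull _ hH w), ?_⟩
  rw [Form.d_add, ← e1, ← e2]
  abel

end Step

end

end Vale.Agent.P231Z.Res
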