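import Vale.Agent.P231Z.Res.Defs

/-!
# P231 (A), block F2: facts on minimal geodesics
-/

set_option maxSynthPendingDepth 3
set_option linter.unusedSectionVars false
set_option linter.unusedVariables false

open Bundle Manifold Set Filter Module
open scoped ContDiff Manifold Topology

namespace Vale.Agent.P231Z.Res

noncomputable section

open Vale.Agent.P234 Vale.Agent.P231 Vale.Agent.P231.H775 Vale.Agent.P231.Fm Vale.Agent.P231.W
open Vale.Agent.P231.WD3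

variable {E : Type*} [NormedAddCommGroup E] [NormedSpace ℝ E] [FiniteDimensional ℝ E]
  {M : Type*} [MetricSpace M] [ChartedSpace E M] [IsManifold 𝓘(ℝ, E) ∞ M]
  [RiemannianBundle (fun x : M => TangentSpace 𝓘(ℝ, E) x)]
  [IsContMDiffRiemannianBundle 𝓘(ℝ, E) ∞ E (fun x : M => TangentSpace 𝓘(ℝ, E) x)]
  {e : ∀ x : M, TangentSpace 𝓘(ℝ, E) x → M}

/-! ### continuity and smoothness -/

theorem contAt_gG0 (F : Facts e) {D : ℝ} (hB : InjGE e D) {x y : M} (h : dist x y < D) (r : ℝ) :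
    ContinuousAt (fun p : M × M × ℝ => gG e p.1 p.2.1 p.2.2) (x, y, r) := by
  have hx : (extChartAt 𝓘(ℝ, E) x).symm (extChartAt 𝓘(ℝ, E) x x) = x := extChartAt_to_inv x
  have hy : (extChartAt 𝓘(ℝ, E) y).symm (extChartAt 𝓘(ℝ, E) y y) = y := extChartAt_to_inv y
  have sx : ContMDiffAt 𝓘(ℝ, E) 𝓘(ℝ, E) ∞ (extChartAt 𝓘(ℝ, E) x).symm (extChartAt 𝓘(ℝ, E) x x) :=
    (contMDiffOn_extChartAt_symm x).contMDiffAt (extChartAt_target_mem_nhds x)
  have sy : ContMDiffAt 𝓘(ℝ, E) 𝓘(ℝ, E) ∞ (extChartAt 𝓘(ℝ, E) y).symm (extChartAt 𝓘(ℝ, E) y y) :=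
    (contMDiffOn_extChartAt_symm y).contMDiffAt (extChartAt_target_mem_nhds y)
  have ha : ContMDiffAt 𝓘(ℝ, E × E × ℝ) 𝓘(ℝ, E) ∞
      (fun v : E × E × ℝ => (extChartAt 𝓘(ℝ, E) x).symm v.1)
      (extChartAt 𝓘(ℝ, E) x x, extChartAt 𝓘(ℝ, E) y y, r) :=
    ContMDiffAt.comp (f := fun v : E × E × ℝ => v.1) _ sx contDiffAt_fst.contMDiffAt
  have hb : ContMDiffAt 𝓘(ℝ, E × E × ℝ) 𝓘(ℝ, E) ∞
      (fun v : E × E × ℝ => (extChartAt 𝓘(ℝ, E) y).symm v.2.1)
      (extChartAt 𝓘(ℝ, E) x x, extChartAt 𝓘(ℝ, E) y y, r) :=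
    ContMDiffAt.comp (f := fun v : E × E × ℝ => v.2.1) _ sy contDiffAt_snd.fst.contMDiffAt
  have h1 := (contMDiffAt_gG F hB ha hb (r := fun v : E × E × ℝ => v.2.2) contDiffAt_snd.snd
    (by rw [hx, hy]; exact h)).continuousAt
  have h2 : ContinuousAt (fun p : M × M × ℝ =>
      ((extChartAt 𝓘(ℝ, E) x p.1, extChartAt 𝓘(ℝ, E) y p.2.1, p.2.2) : E × E × ℝ)) (x, y, r) := by
    refine ContinuousAt.prodMk ?_ (ContinuousAt.prodMk ?_ continuousAt_snd.snd)
    · exact ContinuousAt.comp (f := fun p : M × M × ℝ => p.1) (continuousAt_extChartAt x)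
        continuousAt_fst
    · exact ContinuousAt.comp (f := fun p : M × M × ℝ => p.2.1) (continuousAt_extChartAt y)
        continuousAt_snd.fst
  have h3 := ContinuousAt.comp (f := fun p : M × M × ℝ =>
      ((extChartAt 𝓘(ℝ, E) x p.1, extChartAt 𝓘(ℝ, E) y p.2.1, p.2.2) : E × E × ℝ)) h1 h2
  refine h3.congr ?_
  have e1 : ∀ᶠ p : M × M × ℝ in 𝓝 (x, y, r), p.1 ∈ (extChartAt 𝓘(ℝ, E) x).source :=
    (continuousAt_fst (p := ((x, y, r) : M × M × ℝ))).eventually (extChartAt_source_mem_nhds x)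
  have e2 : ∀ᶠ p : M × M × ℝ in 𝓝 (x, y, r), p.2.1 ∈ (extChartAt 𝓘(ℝ, E) y).source :=
    (continuousAt_snd (p := ((x, y, r) : M × M × ℝ))).fst.eventually
      (extChartAt_source_mem_nhds y)
  filter_upwards [e1, e2] with p k1 k2
  show gG e ((extChartAt 𝓘(ℝ, E) x).symm (extChartAt 𝓘(ℝ, E) x p.1))
    ((extChartAt 𝓘(ℝ, E) y).symm (extChartAt 𝓘(ℝ, E) y p.2.1)) p.2.2 = gG e p.1 p.2.1 p.2.2
  rw [(extChartAt 𝓘(ℝ, E) x).left_inv k1, (extChartAt 𝓘(ℝ, E) y).left_inv k2]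

/-- the interpolation is jointly continuous -/
theorem contAt_gG (F : Facts e) {D : ℝ} (hB : InjGE e D) {T : Type*} [TopologicalSpace T]
    {a b : T → M} {r : T → ℝ} {t : T} (ha : ContinuousAt a t) (hb : ContinuousAt b t)
    (hr : ContinuousAt r t) (h : dist (a t) (b t) < D) :
    ContinuousAt (fun s => gG e (a s) (b s) (r s)) t :=
  ContinuousAt.comp (f := fun s => (a s, b s, r s)) (contAt_gG0 F hB h (r t))
    (ha.prodMk (hb.prodMk hr))

section Plot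

variable {V : Type} [NormedAddCommGroup V] [NormedSpace ℝ V] [FiniteDimensional ℝ V]

theorem cont_at {a : V → M} {s : V} (ha : (dM E M).At a s) : ContinuousAt a s := by
  have ha' : ∀ᶠ y in 𝓝 s, ContMDiffAt 𝓘(ℝ, V) 𝓘(ℝ, E) ∞ a y := ha
  exact ha'.self_of_nhds.continuousAt

theorem ev_dist_lt {a b : V → M} {s : V} (ha : (dM E M).At a s) (hb : (dM E M).At b s) {r : ℝ}
    (h : dist (a s) (b s) < r) : ∀ᶠ y in 𝓝 s, dist (a y) (b y) < r :=
  ((cont_at ha).dist (cont_at hb)).eventually_lt_const h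

theorem ev_lt_dist {a b : V → M} {s : V} (ha : (dM E M).At a s) (hb : (dM E M).At b s) {r : ℝ}
    (h : r < dist (a s) (b s)) : ∀ᶠ y in 𝓝 s, r < dist (a y) (b y) :=
  ((cont_at ha).dist (cont_at hb)).eventually_const_lt h

theorem sm_dist_sq (F : Facts e) {D : ℝ} (hB : InjGE e D) {a b : V → M} {s : V}
    (ha : (dM E M).At a s) (hb : (dM E M).At b s) (h : dist (a s) (b s) < D) :
    Sm (fun y => dist (a y) (b y) ^ 2) s := by
  have ha' : ∀ᶠ y in 𝓝 s, ContMDiffAt 𝓘(ℝ, V) 𝓘(ℝ, E) ∞ a y := ha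
  have hb' : ∀ᶠ y in 𝓝 s, ContMDiffAt 𝓘(ℝ, V) 𝓘(ℝ, E) ∞ b y := hb
  have h1 := ev_dist_lt ha hb h
  filter_upwards [ha', hb', h1, eventually_eventually_nhds.2 h1] with y k1 k2 k3 k4
  refine (smV_lm F hB k1 k2 k3).norm_sq.congr_of_eventuallyEq ?_
  filter_upwards [k4] with z hz
  exact congrArg (· ^ 2) (nm_lm F hB hz).symm

theorem sm_dist (F : Facts e) {D : ℝ} (hB : InjGE e D) {a b : V → M} {s : V}
    (ha : (dM E M).At a s) (hb : (dM E M).At b s) (h0 : 0 < dist (a s) (b s))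
    (h : dist (a s) (b s) < D) : Sm (fun y => dist (a y) (b y)) s := by
  have h1 : (fun y => dist (a y) (b y)) = fun y => Real.sqrt (dist (a y) (b y) ^ 2) := by
    funext y
    rw [Real.sqrt_sq dist_nonneg]
  rw [h1]
  filter_upwards [sm_dist_sq F hB ha hb h, ev_lt_dist ha hb h0] with y k1 k2
  exact k1.sqrt (pow_pos k2 2).ne'

end Plot

/-! ### the direction of a minimal geodesic -/

open Classical in
/-- the unit vector at `x` in the direction of `y` -/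
def dirU (e : ∀ x : M, TangentSpace 𝓘(ℝ, E) x → M) (v₀ : UT E M) (x y : M) : UT E M :=
  if h : nm x ((dist x y)⁻¹ • lm e x y) = 1 then W.mk x ((dist x y)⁻¹ • lm e x y) h else v₀

theorem nm_dir (F : Facts e) {D : ℝ} (hB : InjGE e D) {x y : M} (h0 : 0 < dist x y)
    (h : dist x y < D) : nm x ((dist x y)⁻¹ • lm e x y) = 1 := by
  rw [nm_smul, nm_lm F hB h, abs_of_pos (inv_pos.2 h0), inv_mul_cancel₀ h0.ne']

theorem dirU_eq (F : Facts e) {D : ℝ} (hB : InjGE e D) (v₀ : UT E M) {x y : M} (h0 : 0 < dist x y)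
    (h : dist x y < D) :
    dirU e v₀ x y = W.mk x ((dist x y)⁻¹ • lm e x y) (nm_dir F hB h0 h) := dif_pos _

theorem foot_dirU (F : Facts e) {D : ℝ} (hB : InjGE e D) (v₀ : UT E M) {x y : M}
    (h0 : 0 < dist x y) (h : dist x y < D) : foot (dirU e v₀ x y) = x := by
  rw [dirU_eq F hB v₀ h0 h]
  rfl

theorem gm_dirU (F : Facts e) {D : ℝ} (hB : InjGE e D) (v₀ : UT E M) {x y : M}
    (h0 : 0 < dist x y) (h : dist x y < D) (t : ℝ) :
    gm e (dirU e v₀ x y, t) = gG e x y (t / dist x y) := by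
  rw [dirU_eq F hB v₀ h0 h]
  have h1 := gam_smul (e := e) x (lm e x y) (dist x y)⁻¹ t
  rw [inv_mul_eq_div] at h1
  exact h1

theorem gm_dirU_self (F : Facts e) {D : ℝ} (hB : InjGE e D) (v₀ : UT E M) {x y : M}
    (h0 : 0 < dist x y) (h : dist x y < D) : gm e (dirU e v₀ x y, dist x y) = y := by
  rw [gm_dirU F hB v₀ h0 h, div_self h0.ne', gG_one F hB h]

theorem dist_foot_gm {D : ℝ} (hB : InjGE e D) (v : UT E M) {t : ℝ} (h0 : 0 ≤ t) (h : t ≤ D) :
    dist (foot v) (gm e (v, t)) = t := by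
  have h2 := nm_smul (E := E) (foot v) (vec' v) t
  rw [nm_vec' v, mul_one, abs_of_nonneg h0] at h2
  have h1 := hB (foot v) (t • vec' v : E) (h2.le.trans h)
  exact h1.trans h2

theorem dirU_gm (F : Facts e) {D : ℝ} (hB : InjGE e D) (v₀ v : UT E M) {t : ℝ} (h0 : 0 < t)
    (h : t < D) : dirU e v₀ (foot v) (gm e (v, t)) = v := by
  have h1 := dist_foot_gm hB v h0.le h.le
  have h2 : nm (foot v) (t • vec' v) < D := by
    rw [nm_smul, nm_vec' v, mul_one, abs_of_pos h0]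
    exact h
  have h3 : lm e (foot v) (gm e (v, t)) = t • vec' v := lm_eq F hB h2
  rw [dirU_eq F hB v₀ (by rw [h1]; exact h0) (by rw [h1]; exact h)]
  refine Eq.trans (mk_congr rfl ?_) (mk_eta v)
  rw [h1, h3, smul_smul, inv_mul_cancel₀ h0.ne', one_smul]

theorem at_dirU (F : Facts e) {D : ℝ} (hB : InjGE e D) (v₀ : UT E M) {V : Type}
    [NormedAddCommGroup V] [NormedSpace ℝ V] [FiniteDimensional ℝ V] {a b : V → M} {s : V}
    (ha : (dM E M).At a s) (hb : (dM E M).At b s) (h0 : 0 < dist (a s) (b s))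
    (h : dist (a s) (b s) < D) : (dUT E M).At (fun y => dirU e v₀ (a y) (b y)) s := by
  have ha' : ∀ᶠ y in 𝓝 s, ContMDiffAt 𝓘(ℝ, V) 𝓘(ℝ, E) ∞ a y := ha
  have hb' : ∀ᶠ y in 𝓝 s, ContMDiffAt 𝓘(ℝ, V) 𝓘(ℝ, E) ∞ b y := hb
  have h1 := (ev_dist_lt ha hb h).and (ev_lt_dist ha hb h0)
  have h3 : ∀ᶠ y in 𝓝 s, ContMDiffAt 𝓘(ℝ, V) 𝓘(ℝ, E).tangent ∞
      (fun y => (dirU e v₀ (a y) (b y)).1) y := by
    filter_upwards [ha', hb', h1, eventually_eventually_nhds.2 h1, sm_dist F hB ha hb h0 h]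
      with y k1 k2 k3 k4 k5
    have m1 := (smV_lm F hB k1 k2 k3.1).smul (k5.inv k3.2.ne')
    refine ContMDiffAt.congr_of_eventuallyEq m1 ?_
    filter_upwards [k4] with z hz
    rw [dirU_eq F hB v₀ hz.2 hz.1]
    rfl
  exact h3

theorem at_gm (F : Facts e) {V : Type} [NormedAddCommGroup V] [NormedSpace ℝ V]
    [FiniteDimensional ℝ V] [CompactSpace M] [ConnectedSpace M] [IsRiemannianManifold 𝓘(ℝ, E) M]
    {v : V → UT E M} {t : V → ℝ} {s : V} (hv : (dUT E M).At v s) (ht : Sm t s) :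
    (dM E M).At (fun y => gm e (v y, t y)) s :=
  map_gm F (u := fun y => (v y, t y)) ⟨hv, ht⟩

/-! ### geodesics -/

theorem dist_gm_le (F : Facts e) (v : UT E M) (s t : ℝ) :
    dist (gm e (v, s)) (gm e (v, t)) ≤ |t - s| := by
  have h1 : dist (gm e (v, s)) (gm e (v, t)) ≤ |t - s| * nm (foot v) (vec' v) :=
    dist_exp_le F.isExp (foot v) (vec' v : E) s t
  rw [nm_vec' v, mul_one] at h1
  exact h1

theorem gG_gm (F : Facts e) {D : ℝ} (hB : InjGE e D) (v : UT E M) {s t : ℝ} (hst : |t - s| < D)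
    (r : ℝ) : gG e (gm e (v, s)) (gm e (v, t)) r = gm e (v, s + r * (t - s)) :=
  gG_gam F hB (nm_vec' v) hst r

theorem gG_gG (F : Facts e) {D : ℝ} (hB : InjGE e D) {x y : M} (h : dist x y < D) {r : ℝ}
    (hr : r ∈ Icc (0 : ℝ) 1) (s : ℝ) : gG e x (gG e x y r) s = gG e x y (s * r) := by
  have h1 : nm x (r • lm e x y) < D := by
    rw [nm_smul, nm_lm F hB h, abs_of_nonneg hr.1]
    exact lt_of_le_of_lt (mul_le_of_le_one_left dist_nonneg hr.2) h
  have h2 := gG_exp F hB h1 s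
  rw [smul_smul] at h2
  exact h2

variable [CompactSpace M] [ConnectedSpace M] [IsRiemannianManifold 𝓘(ℝ, E) M]

theorem dist_gm (F : Facts e) {D : ℝ} (hB : InjGE e D) (v : UT E M) {s t : ℝ} (h0 : s ≤ t)
    (h : t - s ≤ D) : dist (gm e (v, s)) (gm e (v, t)) = t - s := by
  have h1 := dist_foot_gm hB (phi F (v, s)) (sub_nonneg.2 h0) h
  rw [gm_phi, foot_phi, add_sub_cancel] at h1
  exact h1

theorem gm_per (F : Facts e) {D : ℝ} (hD : 0 < D) (hB : InjGE e D)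
    (hdiam : ∀ p q : M, dist p q ≤ D) (v : UT E M) : gm e (v, 2 * D) = foot v := by
  rw [← foot_phi F, phi_per F hD hB hdiam]

/-- three points in a row lie on a geodesic -/
theorem gG_between (F : Facts e) {D : ℝ} (hB : InjGE e D) {x y z : M} (h0 : 0 < dist x y)
    (h : dist x y < D) (hz : dist x y + dist y z = dist x z) :
    gG e x y (dist x z / dist x y) = z := by
  obtain ⟨w, hw, h1, t, ht0, ht1, h2, h3⟩ := F.between hz
  have h4 : dist x z = ‖w‖ := by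
    have h5 : dist x (e x w) = ‖w‖ := hw
    rwa [h1] at h5
  have ht : t ≠ 0 := by
    rintro rfl
    rw [zero_mul] at h3
    exact h0.ne' h3
  have hw0 : ‖w‖ ≠ 0 := by
    intro h5
    rw [h5, mul_zero] at h3
    exact h0.ne' h3
  have h6 : nm (E := E) x (t • w : TangentSpace 𝓘(ℝ, E) x) < D := by
    have h7 : ‖t • w‖ = dist x y := by rw [norm_smul, Real.norm_of_nonneg ht0, h3]
    exact lt_of_eq_of_lt h7 h
  have h7 := gG_exp F hB h6 (dist x z / dist x y)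
  have h8 : ((dist x z / dist x y) • (t • w) : TangentSpace 𝓘(ℝ, E) x) = w := by
    rw [smul_smul, h4, h3]
    have h9 : ‖w‖ / (t * ‖w‖) * t = 1 := by field_simp
    rw [h9, one_smul]
  have h10 : e x ((dist x z / dist x y) • (t • w)) = z := by rw [h8, h1]
  have h11 : gG e x (e x (t • w)) (dist x z / dist x y) = z := h7.trans h10
  rwa [h2] at h11

/-! ### the retraction to the cut locus -/

theorem cutPt_of_eq {D : ℝ} {x y : M} (h : dist x y = D) : WE.cutPt e D x y = y := by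
  rw [WE.cutPt, if_neg (by rw [h]; exact lt_irrefl D)]

theorem cutPt_eq_bar (F : Facts e) {D : ℝ} (hB : InjGE e D) (v₀ : UT E M) {x y : M}
    (h0 : 0 < dist x y) (h : dist x y < D) : WE.cutPt e D x y = bar e D (dirU e v₀ x y) := by
  rw [WE.cutPt, if_pos h, dirU_eq F hB v₀ h0 h, WE.dirAt, (WE.exp_logMap F hB h).2]
  rfl

theorem cutPt_gm (F : Facts e) {D : ℝ} (hB : InjGE e D) (v : UT E M) {t : ℝ} (h0 : 0 < t)
    (h : t < D) : WE.cutPt e D (foot v) (gm e (v, t)) = bar e D v := by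
  have h1 := dist_foot_gm hB v h0.le h.le
  rw [cutPt_eq_bar F hB v (by rw [h1]; exact h0) (by rw [h1]; exact h), dirU_gm F hB v v h0 h]

theorem dist_cutPt (F : Facts e) {D : ℝ} (hD : 0 < D) (hB : InjGE e D)
    (hdiam : ∀ p q : M, dist p q ≤ D) (v₀ : UT E M) {x y : M} (h0 : 0 < dist x y) :
    dist x (WE.cutPt e D x y) = D ∧ dist y (WE.cutPt e D x y) = D - dist x y := by
  rcases lt_or_eq_of_le (hdiam x y) with h | h
  · rw [cutPt_eq_bar F hB v₀ h0 h]
    refine ⟨?_, ?_⟩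
    · have h1 := dist_bar F hD hB (dirU e v₀ x y)
      rwa [foot_dirU F hB v₀ h0 h] at h1
    · have h1 := dist_gm F hB (dirU e v₀ x y) (s := dist x y) (t := D) h.le (by linarith)
      rwa [gm_dirU_self F hB v₀ h0 h] at h1
  · rw [cutPt_of_eq h, h, dist_self, sub_self]
    exact ⟨rfl, rfl⟩

end

end Vale.Agent.P231Z.Res
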