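import Vale.Agent.P231Z.Res.Birk
import Vale.Agent.P231Z.Res.Flow

/-!
# P231 (A), block F2: the chains between cut points retract to the unit tangent bundle
-/

set_option maxSynthPendingDepth 3
set_option linter.unusedSectionVars false
set_option linter.unusedVariables false

open Bundle Manifold Set Filter Module
open scoped ContDiff Manifold Topology

namespace Vale.Agent.P231Z.Res

noncomputable section

open Vale.Agent.P234 Vale.Agent.P231 Vale.Agent.P231.H775 Vale.Agent.P231.Fm Vale.Agent.P231.W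
open Vale.Agent.P231.WD3
open Vale.Agent.P231.H766 (stp_mem stp_of_le stp_of_ge stp_contDiff)

/-- descent on a compact set -/
theorem descent {T : Type*} [TopologicalSpace T] {K : Set T} (hK : IsCompact K) {b : T → T}
    (hb : ∀ z ∈ K, b z ∈ K) (hbc : ContinuousOn b K) {f : T → ℝ} (hf : Continuous f) {m : ℝ}
    (hle : ∀ z ∈ K, f (b z) ≤ f z) (hlt : ∀ z ∈ K, m ≤ f z → f (b z) < f z) :
    ∃ n : ℕ, ∀ z ∈ K, f (b^[n] z) < m := by
  have hK' : IsCompact (K ∩ {z | m ≤ f z}) := hK.inter_right (isClosed_le continuous_const hf)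
  rcases (K ∩ {z | m ≤ f z}).eq_empty_or_nonempty with h0 | h0
  · refine ⟨0, fun z hz => not_le.1 fun h => ?_⟩
    have h1 : z ∈ K ∩ {z | m ≤ f z} := ⟨hz, h⟩
    rw [h0] at h1
    exact h1
  · have hc : ContinuousOn (fun z => f z - f (b z)) (K ∩ {z | m ≤ f z}) :=
      hf.continuousOn.sub ((hf.comp_continuousOn hbc).mono inter_subset_left)
    obtain ⟨z₀, hz₀, hmin⟩ := hK'.exists_isMinOn h0 hc
    obtain ⟨c, hc⟩ : ∃ c, c = f z₀ - f (b z₀) := ⟨_, rfl⟩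
    have hc0 : 0 < c := by
      rw [hc]
      exact sub_pos.2 (hlt z₀ hz₀.1 hz₀.2)
    obtain ⟨C, hC⟩ := hK.bddAbove_image hf.continuousOn
    have key : ∀ n : ℕ, ∀ z ∈ K, b^[n] z ∈ K ∧ (f (b^[n] z) < m ∨ f (b^[n] z) ≤ C - n * c) := by
      intro n
      induction n with
      | zero =>
        intro z hz
        refine ⟨hz, Or.inr ?_⟩
        have h1 : f z ≤ C := hC (mem_image_of_mem f hz)
        simpa using h1
      | succ n ih =>
        intro z hz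
        obtain ⟨h1, h2⟩ := ih z hz
        rw [Function.iterate_succ_apply']
        refine ⟨hb _ h1, ?_⟩
        rcases lt_or_ge (f (b^[n] z)) m with h3 | h3
        · exact Or.inl ((hle _ h1).trans_lt h3)
        · right
          have h4 : f z₀ - f (b z₀) ≤ f (b^[n] z) - f (b (b^[n] z)) := hmin ⟨h1, h3⟩
          have h5 := h2.resolve_left (not_lt.2 h3)
          push_cast
          linarith
    obtain ⟨n, hn⟩ := exists_nat_gt ((C - m) / c)
    rw [div_lt_iff₀ hc0] at hn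
    refine ⟨n, fun z hz => ?_⟩
    rcases (key n z hz).2 with h | h
    · exact h
    · linarith

/-- exactness on a subset which deforms into the image of `j` -/
theorem exact_of_retr {X Y : Type*} {DX : Dif X} {DY : Dif Y} {O O' : Set X} (hO : O' ⊆ O)
    {j : Y → X} (hj : DY.Map (DX.on O) j) {ρ : X → Y} (hρ : (DX.on O').Map DY ρ)
    {H : X × ℝ → X} (hH : ((DX.on O').prod (Dif.lin ℝ)).Map (DX.on O) H)
    (h1 : ∀ x ∈ O', H (x, 1) = x) (h0 : ∀ x ∈ O', H (x, 0) = j (ρ x)) {w : Form (DX.on O)}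
    (hw : w.d = 0) {γ : Form DY} (hγ : Form.pull j hj w = γ.d) :
    ∃ η : Form (DX.on O'), Form.pull id (Dif.map_on_mono hO) w = η.d := by
  have hj' : (DX.on O').Map (DX.on O) (fun x => j (ρ x)) := Dif.Map.comp hj hρ
  have e1 := Form.pull_homotopic (D := DX) (O := O') (D' := DX.on O) hH (f := id)
    (g := fun x => j (ρ x)) (Dif.map_on_mono hO) hj' h1 h0 hw
  have e2 : Form.pull (fun x => j (ρ x)) hj' w = (Form.pull ρ hρ γ).d := by
    rw [← Form.pull_d, ← hγ]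
    exact (Form.pull2_one (f := ρ) (g := j) (g' := fun x => j (ρ x)) _ _ _ (fun _ => rfl) w).symm
  refine ⟨Form.pull ρ hρ γ + Form.K (Form.pull H hH w), ?_⟩
  rw [Form.d_add, ← e1, ← e2]
  abel

variable {E : Type*} [NormedAddCommGroup E] [NormedSpace ℝ E] [FiniteDimensional ℝ E]
  {M : Type*} [MetricSpace M] [ChartedSpace E M] [IsManifold 𝓘(ℝ, E) ∞ M]
  [RiemannianBundle (fun x : M => TangentSpace 𝓘(ℝ, E) x)]
  [IsContMDiffRiemannianBundle 𝓘(ℝ, E) ∞ E (fun x : M => TangentSpace 𝓘(ℝ, E) x)]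
  {e : ∀ x : M, TangentSpace 𝓘(ℝ, E) x → M}
  [CompactSpace M] [ConnectedSpace M] [IsRiemannianManifold 𝓘(ℝ, E) M]

/-- the compact pieces -/
def sK (D r : ℝ) : Set (M × M × M × M) :=
  {z | (dist z.1 z.2.1 ≤ r ∧ dist z.2.1 z.2.2.1 ≤ r ∧ dist z.2.2.1 z.2.2.2 ≤ r) ∧
    dist z.1 z.2.2.2 = D}

theorem isCompact_sK (D r : ℝ) : IsCompact (sK D r : Set (M × M × M × M)) := by
  have c1 : Continuous (fun z : M × M × M × M => dist z.1 z.2.1) := by fun_prop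
  have c2 : Continuous (fun z : M × M × M × M => dist z.2.1 z.2.2.1) := by fun_prop
  have c3 : Continuous (fun z : M × M × M × M => dist z.2.2.1 z.2.2.2) := by fun_prop
  have c4 : Continuous (fun z : M × M × M × M => dist z.1 z.2.2.2) := by fun_prop
  exact IsClosed.isCompact (((isClosed_le c1 continuous_const).inter
    ((isClosed_le c2 continuous_const).inter (isClosed_le c3 continuous_const))).inter
    (isClosed_eq c4 continuous_const))

theorem sK_sub {D r : ℝ} (hr : r < D) : (sK D r : Set (M × M × M × M)) ⊆ sZ D := fun z hz =>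
  ⟨⟨hz.1.1.trans_lt hr, hz.1.2.1.trans_lt hr, hz.1.2.2.trans_lt hr⟩, hz.2⟩

theorem one_mem : (1 : ℝ) ∈ Icc (0 : ℝ) 1 := ⟨zero_le_one, le_rfl⟩

theorem contAt_bk (F : Facts e) {D : ℝ} (hB : InjGE e D) {z : M × M × M × M} (hz : z ∈ sA3 D) :
    ContinuousAt (fun z => bk e z 1) z :=
  continuousAt_fst.prodMk
    ((contAt_cc F hB continuousAt_fst continuousAt_snd.fst continuousAt_snd.snd.fst hz.1 hz.2.1
      one_mem).prodMk
    ((contAt_cc F hB continuousAt_snd.fst continuousAt_snd.snd.fst continuousAt_snd.snd.snd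
      hz.2.1 hz.2.2 one_mem).prodMk continuousAt_snd.snd.snd))

/-- finitely many steps lead close to the minimum -/
theorem bk_fin (F : Facts e) {D : ℝ} (hD : 0 < D) (hB : InjGE e D)
    (hdiam : ∀ p q : M, dist p q ≤ D) (v₀ : UT E M) {r η : ℝ} (hr : r < D) (hη : 0 < η) :
    ∃ n : ℕ, ∀ z ∈ sK D r, en ((fun z => bk e z 1)^[n] z) < D ^ 2 / 3 + η := by
  refine descent (isCompact_sK D r) (fun z hz => ?_)
    (fun z hz => (contAt_bk F hB (sK_sub hr hz).1).continuousWithinAt) continuous_en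
    (fun z hz => en_bk_le F hB (sK_sub hr hz).1 one_mem) (fun z hz h => not_le.1 fun h1 => ?_)
  · exact ⟨bk_le F hB (sK_sub hr hz).1 hz.1.1 hz.1.2.1 hz.1.2.2 one_mem, hz.2⟩
  · obtain ⟨v, rfl⟩ := bk_fix F hD hB hdiam v₀ (sK_sub hr hz) h1
    rw [en_jZ F hD hB] at h
    linarith

/-- the exhaustion function -/
def exh (D : ℝ) (z : M × M × M × M) : ℝ :=
  (D ^ 2 - dist z.1 z.2.1 ^ 2)⁻¹ + (D ^ 2 - dist z.2.1 z.2.2.1 ^ 2)⁻¹ +
    (D ^ 2 - dist z.2.2.1 z.2.2.2 ^ 2)⁻¹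

theorem sq_sub_pos {D a : ℝ} (h0 : 0 ≤ a) (h : a < D) : 0 < D ^ 2 - a ^ 2 :=
  sub_pos.2 (pow_lt_pow_left₀ h h0 two_ne_zero)

theorem le_of_exh {D a : ℝ} (h0 : 0 ≤ a) (h : a < D) {k : ℕ} (hk : (D ^ 2 - a ^ 2)⁻¹ ≤ k) :
    a ≤ D - (2 * D * (k + 1))⁻¹ := by
  have hD : 0 < D := h0.trans_lt h
  have h1 := sq_sub_pos h0 h
  have h2 : 1 ≤ (D ^ 2 - a ^ 2) * (k + 1) := by
    rw [inv_le_iff_one_le_mul₀' h1] at hk
    nlinarith
  have h3 : (D ^ 2 - a ^ 2) ≤ (D - a) * (2 * D) := by nlinarith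
  have hk1 : (0 : ℝ) < k + 1 := by positivity
  have h4 : 1 ≤ (D - a) * (2 * D * (k + 1)) := by
    have h5 := mul_le_mul_of_nonneg_right h3 hk1.le
    linarith
  have h6 : (2 * D * (k + 1))⁻¹ ≤ D - a := by
    rw [inv_le_iff_one_le_mul₀ (by positivity)]
    exact h4
  linarith

theorem map_exh (F : Facts e) {D : ℝ} (hB : InjGE e D) :
    ((dQ4 E M).on (sZ D)).Map (Dif.lin ℝ) (exh D) := by
  intro V _ _ _ u s hu
  have hz := hu.2.self_of_nhds.1
  have h1 := sm_dist_sq F hB hu.1.1 hu.1.2.1 hz.1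
  have h2 := sm_dist_sq F hB hu.1.2.1 hu.1.2.2.1 hz.2.1
  have h3 := sm_dist_sq F hB hu.1.2.2.1 hu.1.2.2.2 hz.2.2
  have h4 : Sm (fun y => exh D (u y)) s := by
    filter_upwards [h1, h2, h3, hu.2] with y k1 k2 k3 k4
    exact (((contDiffAt_const.sub k1).inv (sq_sub_pos dist_nonneg k4.1.1).ne').add
      ((contDiffAt_const.sub k2).inv (sq_sub_pos dist_nonneg k4.1.2.1).ne')).add
      ((contDiffAt_const.sub k3).inv (sq_sub_pos dist_nonneg k4.1.2.2).ne')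
  exact h4

theorem sm_stp {V : Type*} [NormedAddCommGroup V] [NormedSpace ℝ V] {f : V → ℝ} {x : V}
    (h : Sm f x) : Sm (fun y => H766.stp (f y)) x := (Sm.of_contDiff stp_contDiff _).comp h

theorem step_bk (F : Facts e) {D : ℝ} (hD : 0 < D) (hB : InjGE e D)
    (hdiam : ∀ p q : M, dist p q ≤ D) (v₀ : UT E M) {η : ℝ} (hη : 0 < η) :
    Step (dQ4 E M) (sZ D) {z | en z < D ^ 2 / 3 + η} (fun p => bk e p.1 (H766.stp p.2)) (exh D) where
  map := fun {V} _ _ _ {u s} hu => by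
    have hz := hu.1.2.self_of_nhds.1
    have ht : Sm (fun y => H766.stp (u y).2) s := sm_stp hu.2
    refine ⟨⟨hu.1.1.1, at_cc F hB hu.1.1.1 hu.1.1.2.1 hu.1.1.2.2.1 ht hz.1 hz.2.1 (stp_mem _),
      at_cc F hB hu.1.1.2.1 hu.1.1.2.2.1 hu.1.1.2.2.2 ht hz.2.1 hz.2.2 (stp_mem _),
      hu.1.1.2.2.2⟩, ?_⟩
    filter_upwards [hu.1.2] with y hy
    exact bk_mem F hB hy (stp_mem _)
  zero z hz t ht := by
    show bk e z (H766.stp t) = z
    rw [stp_of_le ht, bk, cc_zero F hB hD, cc_zero F hB hD]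
  one z hz t ht := by
    show bk e z (H766.stp t) = bk e z (H766.stp 1)
    rw [stp_of_ge ht, stp_of_ge (by norm_num)]
  memO z hz t := bk_mem F hB hz (stp_mem _)
  memU z hz hU t := (en_bk_le F hB hz.1 (stp_mem _)).trans_lt hU
  hmap := map_exh F hB
  fin k := by
    have hr : D - (2 * D * (k + 1))⁻¹ < D := sub_lt_self _ (by positivity)
    obtain ⟨n, hn⟩ := bk_fin F hD hB hdiam v₀ hr hη
    refine ⟨n, fun z hz hk => ?_⟩
    have h1 : (fun x : M × M × M × M => bk e x (H766.stp 1)) = fun x => bk e x 1 := by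
      rw [stp_of_ge (by norm_num)]
    have p1 := inv_pos.2 (sq_sub_pos dist_nonneg hz.1.1)
    have p2 := inv_pos.2 (sq_sub_pos dist_nonneg hz.1.2.1)
    have p3 := inv_pos.2 (sq_sub_pos dist_nonneg hz.1.2.2)
    unfold exh at hk
    have h2 := hn z ⟨⟨le_of_exh dist_nonneg hz.1.1 (by linarith),
      le_of_exh dist_nonneg hz.1.2.1 (by linarith),
      le_of_exh dist_nonneg hz.1.2.2 (by linarith)⟩, hz.2⟩
    rw [← h1] at h2
    exact h2

/-- chains which are close to a minimal geodesic -/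
def sV (e : ∀ x : M, TangentSpace 𝓘(ℝ, E) x → M) (D : ℝ) : Set (M × M × M × M) :=
  {z | (0 < dist z.1 z.2.1 ∧ dist z.1 z.2.1 < D / 2 ∧ dist z.2.1 z.2.2.1 < D / 2 ∧
      dist z.2.2.1 z.2.2.2 < D / 2) ∧
    dist z.2.1 (gG e z.1 z.2.1 (D / 3 / dist z.1 z.2.1)) < D / 12 ∧
    dist z.2.2.1 (gG e z.1 z.2.1 (2 * D / 3 / dist z.1 z.2.1)) < D / 12 ∧
    dist z.2.2.2 (gG e z.1 z.2.1 (D / dist z.1 z.2.1)) < D / 12}

theorem isOpen_sV (F : Facts e) {D : ℝ} (hD : 0 < D) (hB : InjGE e D) : IsOpen (sV e D) := by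
  refine isOpen_iff_mem_nhds.2 fun z hz => ?_
  have c1 : ContinuousAt (fun z : M × M × M × M => dist z.1 z.2.1) z := by fun_prop
  have c2 : ContinuousAt (fun z : M × M × M × M => dist z.2.1 z.2.2.1) z := by fun_prop
  have c3 : ContinuousAt (fun z : M × M × M × M => dist z.2.2.1 z.2.2.2) z := by fun_prop
  have g : ∀ c : ℝ, ContinuousAt
      (fun z : M × M × M × M => gG e z.1 z.2.1 (c / dist z.1 z.2.1)) z := fun c =>
    contAt_gG F hB continuousAt_fst continuousAt_snd.fst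
      (continuousAt_const.div c1 hz.1.1.ne') (by linarith [hz.1.2.1])
  filter_upwards [c1.eventually_const_lt hz.1.1, c1.eventually_lt_const hz.1.2.1,
    c2.eventually_lt_const hz.1.2.2.1, c3.eventually_lt_const hz.1.2.2.2,
    (continuousAt_snd.fst.dist (g (D / 3))).eventually_lt_const hz.2.1,
    (continuousAt_snd.snd.fst.dist (g (2 * D / 3))).eventually_lt_const hz.2.2.1,
    (continuousAt_snd.snd.snd.dist (g D)).eventually_lt_const hz.2.2.2]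
    with y k1 k2 k3 k4 k5 k6 k7
  exact ⟨⟨k1, k2, k3, k4⟩, k5, k6, k7⟩

theorem jZ_mem_sV (F : Facts e) {D : ℝ} (hD : 0 < D) (hB : InjGE e D) (v : UT E M) :
    jZ e D v ∈ sV e D := by
  obtain ⟨-, e1, e2, e3⟩ := jZ_mem F hD hB v
  have g : ∀ c : ℝ, gG e (jZ e D v).1 (jZ e D v).2.1 (c / dist (jZ e D v).1 (jZ e D v).2.1) =
      gm e (v, c) := by
    intro c
    rw [← gm_dirU F hB v (by rw [e1]; linarith) (by rw [e1]; linarith)]
    exact congrArg (fun w => gm e (w, c)) (dirU_gm F hB v v (by linarith) (by linarith))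
  refine ⟨⟨?_, ?_, ?_, ?_⟩, ?_, ?_, ?_⟩
  · rw [e1]; linarith
  · rw [e1]; linarith
  · rw [e2]; linarith
  · rw [e3]; linarith
  · rw [g]
    exact (dist_self _).trans_lt (by linarith)
  · rw [g]
    exact (dist_self _).trans_lt (by linarith)
  · rw [g]
    exact (dist_self _).trans_lt (by linarith)

theorem exists_eta (F : Facts e) {D : ℝ} (hD : 0 < D) (hB : InjGE e D)
    (hdiam : ∀ p q : M, dist p q ≤ D) (v₀ : UT E M) :
    ∃ η : ℝ, 0 < η ∧ ∀ z ∈ sZ D, en z < D ^ 2 / 3 + η → z ∈ sV e D := by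
  have hr : 5 * D / 6 < D := by linarith
  have hK : IsCompact (sK D (5 * D / 6) \ sV e D) :=
    (isCompact_sK D (5 * D / 6)).diff (isOpen_sV F hD hB)
  have hD2 : 0 < D ^ 2 / 3 := by positivity
  have key : ∀ z : M × M × M × M, z ∈ sZ D → en z < D ^ 2 / 3 + D ^ 2 / 3 →
      z ∈ sK D (5 * D / 6) := by
    intro z hz h
    unfold en at h
    have k : ∀ a : ℝ, a ^ 2 < D ^ 2 / 3 + D ^ 2 / 3 → a ≤ 5 * D / 6 := fun a ha =>
      le_of_sq_le_sq (by nlinarith) (by linarith)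
    have p1 := sq_nonneg (dist z.1 z.2.1)
    have p2 := sq_nonneg (dist z.2.1 z.2.2.1)
    have p3 := sq_nonneg (dist z.2.2.1 z.2.2.2)
    exact ⟨⟨k _ (by linarith), k _ (by linarith), k _ (by linarith)⟩, hz.2⟩
  rcases (sK D (5 * D / 6) \ sV e D).eq_empty_or_nonempty with h0 | h0
  · refine ⟨D ^ 2 / 3, hD2, fun z hz h => ?_⟩
    by_contra h1
    have h2 : z ∈ sK D (5 * D / 6) \ sV e D := ⟨key z hz h, h1⟩
    rw [h0] at h2
    exact h2
  · obtain ⟨z₀, hz₀, hmin⟩ := hK.exists_isMinOn h0 continuous_en.continuousOn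
    have h1 : D ^ 2 / 3 < en z₀ := by
      refine not_le.1 fun h2 => hz₀.2 ?_
      have h3 := sK_sub hr hz₀.1
      obtain ⟨v, rfl⟩ := bk_fix F hD hB hdiam v₀ h3
        (h2.trans (en_ge hD (bk_mem F hB h3 one_mem)))
      exact jZ_mem_sV F hD hB v
    refine ⟨min (D ^ 2 / 3) (en z₀ - D ^ 2 / 3), lt_min hD2 (by linarith), fun z hz h => ?_⟩
    by_contra h2
    have h3 := min_le_left (D ^ 2 / 3) (en z₀ - D ^ 2 / 3)
    have h4 := min_le_right (D ^ 2 / 3) (en z₀ - D ^ 2 / 3)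
    have h5 : en z₀ ≤ en z := hmin ⟨key z hz (by linarith), h2⟩
    linarith

/-- the last deformation -/
def lastH (e : ∀ x : M, TangentSpace 𝓘(ℝ, E) x → M) (D : ℝ) (v₀ : UT E M)
    (p : (M × M × M × M) × ℝ) : M × M × M × M :=
  (p.1.1, gG e p.1.2.1 (gm e (dirU e v₀ p.1.1 p.1.2.1, D / 3)) (H766.stp (1 - p.2)),
    gG e p.1.2.2.1 (gm e (dirU e v₀ p.1.1 p.1.2.1, 2 * D / 3)) (H766.stp (1 - p.2)),
    WE.cutPt e D p.1.1 (gG e p.1.2.2.2 (gm e (dirU e v₀ p.1.1 p.1.2.1, D)) (H766.stp (1 - p.2))))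

theorem dist_gG_le (F : Facts e) {D : ℝ} (hB : InjGE e D) {x y : M} (h : dist x y < D) {r : ℝ}
    (hr : r ∈ Icc (0 : ℝ) 1) : dist x (gG e x y r) ≤ dist x y := by
  rw [dist_gG_left F hB h hr]
  exact mul_le_of_le_one_left dist_nonneg hr.2

theorem sV_close (F : Facts e) {D : ℝ} (hD : 0 < D) (hB : InjGE e D) (v₀ : UT E M)
    {z : M × M × M × M} (hV : z ∈ sV e D) :
    dist z.2.1 (gm e (dirU e v₀ z.1 z.2.1, D / 3)) < D / 12 ∧
      dist z.2.2.1 (gm e (dirU e v₀ z.1 z.2.1, 2 * D / 3)) < D / 12 ∧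
      dist z.2.2.2 (gm e (dirU e v₀ z.1 z.2.1, D)) < D / 12 := by
  have h1 : dist z.1 z.2.1 < D := by linarith [hV.1.2.1]
  rw [gm_dirU F hB v₀ hV.1.1 h1, gm_dirU F hB v₀ hV.1.1 h1, gm_dirU F hB v₀ hV.1.1 h1]
  exact hV.2

theorem lastH_far (F : Facts e) {D : ℝ} (hD : 0 < D) (hB : InjGE e D) (v₀ : UT E M)
    {z : M × M × M × M} (hz : z ∈ sZ D) (hV : z ∈ sV e D) {r : ℝ} (hr : r ∈ Icc (0 : ℝ) 1) :
    dist z.2.2.2 (gG e z.2.2.2 (gm e (dirU e v₀ z.1 z.2.1, D)) r) < D / 12 ∧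
      D - dist z.1 (gG e z.2.2.2 (gm e (dirU e v₀ z.1 z.2.1, D)) r) < D / 12 := by
  obtain ⟨-, -, c3⟩ := sV_close F hD hB v₀ hV
  have e1 := (dist_gG_le F hB (c3.trans (by linarith : D / 12 < D)) hr).trans_lt c3
  have e2 := dist_triangle_right z.1 z.2.2.2 (gG e z.2.2.2 (gm e (dirU e v₀ z.1 z.2.1, D)) r)
  rw [hz.2] at e2
  exact ⟨e1, by linarith⟩

theorem lastH_mem (F : Facts e) {D : ℝ} (hD : 0 < D) (hB : InjGE e D)
    (hdiam : ∀ p q : M, dist p q ≤ D) (v₀ : UT E M)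
    {z : M × M × M × M} (hz : z ∈ sZ D) (hV : z ∈ sV e D) (t : ℝ) :
    lastH e D v₀ (z, t) ∈ sZ D := by
  obtain ⟨c1, c2, -⟩ := sV_close F hD hB v₀ hV
  have hr := stp_mem (1 - t)
  have e1 := (dist_gG_le F hB (c1.trans (by linarith : D / 12 < D)) hr).trans_lt c1
  have e2 := (dist_gG_le F hB (c2.trans (by linarith : D / 12 < D)) hr).trans_lt c2
  obtain ⟨e3, e4⟩ := lastH_far F hD hB v₀ hz hV hr
  obtain ⟨e5, e6⟩ := dist_cutPt F hD hB hdiam v₀ (x := z.1)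
    (y := gG e z.2.2.2 (gm e (dirU e v₀ z.1 z.2.1, D)) (H766.stp (1 - t))) (by linarith)
  obtain ⟨y₁, hy₁⟩ : ∃ y, y = gG e z.2.1 (gm e (dirU e v₀ z.1 z.2.1, D / 3)) (H766.stp (1 - t)) :=
    ⟨_, rfl⟩
  obtain ⟨y₂, hy₂⟩ : ∃ y, y =
    gG e z.2.2.1 (gm e (dirU e v₀ z.1 z.2.1, 2 * D / 3)) (H766.stp (1 - t)) := ⟨_, rfl⟩
  obtain ⟨y₃, hy₃⟩ : ∃ y, y = gG e z.2.2.2 (gm e (dirU e v₀ z.1 z.2.1, D)) (H766.stp (1 - t)) :=
    ⟨_, rfl⟩
  have h0 : lastH e D v₀ (z, t) = (z.1, y₁, y₂, WE.cutPt e D z.1 y₃) := by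
    rw [hy₁, hy₂, hy₃]
    rfl
  rw [← hy₁] at e1
  rw [← hy₂] at e2
  rw [← hy₃] at e3 e4 e5 e6
  rw [h0]
  obtain ⟨-, a1, a2, a3⟩ := hV.1
  refine ⟨⟨?_, ?_, ?_⟩, e5⟩
  · have t1 := dist_triangle z.1 z.2.1 y₁
    show dist z.1 y₁ < D
    linarith
  · have t1 := dist_triangle4 y₁ z.2.1 z.2.2.1 y₂
    rw [dist_comm y₁ z.2.1] at t1
    show dist y₁ y₂ < D
    linarith
  · have t1 := dist_triangle4 y₂ z.2.2.1 z.2.2.2 y₃
    have t2 := dist_triangle y₂ y₃ (WE.cutPt e D z.1 y₃)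
    rw [dist_comm y₂ z.2.2.1] at t1
    show dist y₂ (WE.cutPt e D z.1 y₃) < D
    linarith

theorem at_cutPt (F : Facts e) {D : ℝ} (hc : CutSm e D) {V : Type} [NormedAddCommGroup V]
    [NormedSpace ℝ V] [FiniteDimensional ℝ V] {a b : V → M} {s : V} (ha : (dM E M).At a s)
    (hb : (dM E M).At b s) (h : 0 < dist (a s) (b s)) :
    (dM E M).At (fun y => WE.cutPt e D (a y) (b y)) s := by
  have h1 : (((dM E M).prod (dM E M)).on {q | q.2 ≠ q.1}).At (fun y => (a y, b y)) s :=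
    ⟨⟨ha, hb⟩, (ev_lt_dist ha hb h).mono fun y hy => (dist_pos.1 hy).symm⟩
  exact CoZ.map_Zsnd F (hc h1)

theorem map_jZ (F : Facts e) {D : ℝ} (hD : 0 < D) (hB : InjGE e D) :
    (dUT E M).Map ((dQ4 E M).on (sZ D)) (jZ e D) := fun {V} _ _ _ {u s} hu =>
  ⟨⟨map_foot hu, at_gm F hu (Sm.of_contDiff contDiff_const _),
    at_gm F hu (Sm.of_contDiff contDiff_const _), at_gm F hu (Sm.of_contDiff contDiff_const _)⟩,
    Eventually.of_forall fun y => (jZ_mem F hD hB _).1⟩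

theorem lastH_one (F : Facts e) {D : ℝ} (v₀ : UT E M) {z : M × M × M × M} (hz : z ∈ sZ D) :
    lastH e D v₀ (z, 1) = z := by
  have h1 : H766.stp (1 - 1) = 0 := stp_of_le (by norm_num)
  have h2 : lastH e D v₀ (z, 1) =
      (z.1, gG e z.2.1 (gm e (dirU e v₀ z.1 z.2.1, D / 3)) (H766.stp (1 - 1)),
        gG e z.2.2.1 (gm e (dirU e v₀ z.1 z.2.1, 2 * D / 3)) (H766.stp (1 - 1)),
        WE.cutPt e D z.1 (gG e z.2.2.2 (gm e (dirU e v₀ z.1 z.2.1, D)) (H766.stp (1 - 1)))) := rfl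
  rw [h2, h1, gG_zero F, gG_zero F, gG_zero F, cutPt_of_eq hz.2]

theorem lastH_zero (F : Facts e) {D : ℝ} (hD : 0 < D) (hB : InjGE e D) (v₀ : UT E M)
    {z : M × M × M × M} (hz : z ∈ sZ D) (hV : z ∈ sV e D) :
    lastH e D v₀ (z, 0) = jZ e D (dirU e v₀ z.1 z.2.1) := by
  have h1 : H766.stp (1 - 0) = 1 := stp_of_ge (by norm_num)
  obtain ⟨c1, c2, c3⟩ := sV_close F hD hB v₀ hV
  have h2 : foot (dirU e v₀ z.1 z.2.1) = z.1 := foot_dirU F hB v₀ hV.1.1 hz.1.1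
  have h3 : dist z.1 (gm e (dirU e v₀ z.1 z.2.1, D)) = D := by
    have h4 := dist_bar F hD hB (dirU e v₀ z.1 z.2.1)
    rwa [h2] at h4
  have h5 : lastH e D v₀ (z, 0) =
      (z.1, gG e z.2.1 (gm e (dirU e v₀ z.1 z.2.1, D / 3)) (H766.stp (1 - 0)),
        gG e z.2.2.1 (gm e (dirU e v₀ z.1 z.2.1, 2 * D / 3)) (H766.stp (1 - 0)),
        WE.cutPt e D z.1 (gG e z.2.2.2 (gm e (dirU e v₀ z.1 z.2.1, D)) (H766.stp (1 - 0)))) := rfl
  rw [h5, h1, gG_one F hB (c1.trans (by linarith)), gG_one F hB (c2.trans (by linarith)),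
    gG_one F hB (c3.trans (by linarith)), cutPt_of_eq h3, jZ, h2]
  rfl

/-- the retraction to the cut locus is smooth along plots -/
def CutAt (e : ∀ x : M, TangentSpace 𝓘(ℝ, E) x → M) (D : ℝ) : Prop :=
  ∀ {V : Type} [NormedAddCommGroup V] [NormedSpace ℝ V] [FiniteDimensional ℝ V]
    {a b : V → M} {s : V}, (dM E M).At a s → (dM E M).At b s → 0 < dist (a s) (b s) →
    (dM E M).At (fun y => WE.cutPt e D (a y) (b y)) s

theorem CutSm.cutAt (F : Facts e) {D : ℝ} (hc : CutSm e D) : CutAt e D :=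
  fun ha hb h => at_cutPt F hc ha hb h

theorem map_rho (F : Facts e) {D : ℝ} (hB : InjGE e D) (v₀ : UT E M) {O : Set (M × M × M × M)}
    (hO : ∀ z ∈ O, z ∈ sZ D ∧ z ∈ sV e D) :
    ((dQ4 E M).on O).Map (dUT E M) (fun z => dirU e v₀ z.1 z.2.1) := fun {V} _ _ _ {u s} hu =>
  at_dirU F hB v₀ hu.1.1 hu.1.2.1 (hO _ hu.2.self_of_nhds).2.1.1 (hO _ hu.2.self_of_nhds).1.1.1

theorem map_lastH (F : Facts e) {D : ℝ} (hD : 0 < D) (hB : InjGE e D)
    (hdiam : ∀ p q : M, dist p q ≤ D) (v₀ : UT E M) (hc : CutAt e D) {O : Set (M × M × M × M)}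
    (hO : ∀ z ∈ O, z ∈ sZ D ∧ z ∈ sV e D) :
    (((dQ4 E M).on O).prod (Dif.lin ℝ)).Map ((dQ4 E M).on (sZ D)) (lastH e D v₀) := by
  intro V _ _ _ u s hu
  obtain ⟨hz, hzV⟩ := hO _ hu.1.2.self_of_nhds
  obtain ⟨c1, c2, c3⟩ := sV_close F hD hB v₀ hzV
  have h2 : Sm (fun y => (u y).2) s := hu.2
  have ht : Sm (fun y => H766.stp (1 - (u y).2)) s := by
    refine sm_stp ?_
    filter_upwards [h2] with y hy using contDiffAt_const.sub hy
  have hv : (dUT E M).At (fun y => dirU e v₀ (u y).1.1 (u y).1.2.1) s := map_rho F hB v₀ hO hu.1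
  have hg : ∀ c : ℝ, (dM E M).At (fun y => gm e (dirU e v₀ (u y).1.1 (u y).1.2.1, c)) s :=
    fun c => at_gm F hv (Sm.of_contDiff contDiff_const _)
  have a0 : (dM E M).At (fun y => (u y).1.1) s := hu.1.1.1
  have a1 : (dM E M).At (fun y => (u y).1.2.1) s := hu.1.1.2.1
  have a2 : (dM E M).At (fun y => (u y).1.2.2.1) s := hu.1.1.2.2.1
  have a3 : (dM E M).At (fun y => (u y).1.2.2.2) s := hu.1.1.2.2.2
  have b1 := At_gG F hB a1 (hg (D / 3)) ht (c1.trans (by linarith))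
  have b2 := At_gG F hB a2 (hg (2 * D / 3)) ht (c2.trans (by linarith))
  have b3 := At_gG F hB a3 (hg D) ht (c3.trans (by linarith))
  have e4 := (lastH_far F hD hB v₀ hz hzV (stp_mem (1 - (u s).2))).2
  have b4 := hc a0 b3 (by linarith)
  refine ⟨⟨a0, b1, b2, b4⟩, ?_⟩
  filter_upwards [hu.1.2] with y hy
  exact lastH_mem F hD hB hdiam v₀ (hO _ hy).1 (hO _ hy).2 _

/-- **a closed form on the chains between cut points which is exact on the unit tangent bundle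
is exact** -/
theorem exact_sZ (F : Facts e) {D : ℝ} (hD : 0 < D) (hB : InjGE e D)
    (hdiam : ∀ p q : M, dist p q ≤ D) (v₀ : UT E M) (hc : CutAt e D)
    {w : Form ((dQ4 E M).on (sZ D))} (hw : w.d = 0) {γ : Form (dUT E M)}
    (hγ : Form.pull (jZ e D) (map_jZ F hD hB) w = γ.d) :
    ∃ κ : Form ((dQ4 E M).on (sZ D)), w = κ.d := by
  obtain ⟨η, hη, hV⟩ := exists_eta F hD hB hdiam v₀
  obtain ⟨U, hU⟩ : ∃ U : Set (M × M × M × M), U = {z | en z < D ^ 2 / 3 + η} := ⟨_, rfl⟩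
  have hS := step_bk F hD hB hdiam v₀ hη
  rw [← hU] at hS
  have hO : ∀ z ∈ sZ D ∩ U, z ∈ sZ D ∧ z ∈ sV e D := fun z hz =>
    ⟨hz.1, hV z hz.1 (by have h := hz.2; rwa [hU] at h)⟩
  have hρ : ((dQ4 E M).on (sZ D ∩ U)).Map (dUT E M) (fun z => dirU e v₀ z.1 z.2.1) :=
    map_rho F hB v₀ hO
  have hH : (((dQ4 E M).on (sZ D ∩ U)).prod (Dif.lin ℝ)).Map ((dQ4 E M).on (sZ D))
      (lastH e D v₀) := map_lastH F hD hB hdiam v₀ hc hO
  obtain ⟨κ, hκ⟩ := exact_of_retr (O := sZ D) (O' := sZ D ∩ U) inter_subset_left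
    (map_jZ F hD hB) hρ hH (fun z hz => lastH_one F v₀ hz.1)
    (fun z hz => lastH_zero F hD hB v₀ hz.1 (hO z hz).2) hw hγ
  exact hS.exact hw hκ

end

end Vale.Agent.P231Z.Res
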